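import Crest.Agent.X212.Sw.Lv
import Crest.Agent.X212.Cmp73.Cv
import Crest.Agent.X212.Lw78.Ops
import Crest.Agent.X212.Cyl58.PsJ
import Crest.Agent.X212.Pb50.Pt

/-!
# Row 212, SW-LOC (helper74): the parts of the local compactness theorem

`RadStmt` (local potentials), `CechStmt` (a gauge near a compact set), `GauStmt` (a global gauge),
`LimStmt` (smooth limits of solutions); `Mv` : motion of a neck in a family.
-/

set_option autoImplicit false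
set_option linter.unusedSectionVars false
noncomputable section
open scoped Manifold ContDiff Topology InnerProductSpace NNReal
open MeasureTheory Set Function Filter

namespace Crest.Agent.X212.Loc74
open An Sw
open Nd18 (Jv Dp)
open M (Mf)
open Lw78 (da)
open Cyl58 (om)

/-- bounded in `L²` over `K` along `l` -/
def L2 {M α N : Type} [MeasurableSpace M] [NormedAddCommGroup N] (μ : Measure M) (l : Filter α)
    (K : Set M) (f : α → M → N) : Prop :=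
  ∃ B : ℝ≥0, ∀ᶠ i in l, ∫⁻ x in K, ‖f i x‖ₑ ^ 2 ∂μ ≤ B

/-- smooth one-forms -/
structure Frm {X : Mf 4} {ι : Type} [Fintype ι] (F : Fr X.I X.M ι) (a : ι → X.M → ℝ) : Prop where
  sm : ∀ k, Sm X.I (a k)
  pr : ∀ k x, ∑ j, F.P k j x * a j x = a k x

/-- LOC-RAD: arbitrarily small open sets with potentials and a Poincaré inequality -/
def RadStmt : Prop := ∀ (X : Mf 4) (ι : Type) [Fintype ι] (F : Fr X.I X.M ι) (z : X.M),
  ∀ O ∈ 𝓝 z, ∃ V, IsOpen V ∧ z ∈ V ∧ V ⊆ O ∧ ∃ C : ℝ≥0,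
    (∀ a, Frm F a → ∃ φ : X.M → ℝ, Sm X.I φ ∧ ∀ k,
      ∫⁻ x in V, ‖a k x - F.D k φ x‖ₑ ^ 2 ∂F.μ ≤ C * ∫⁻ x in V, ‖da F a x‖ₑ ^ 2 ∂F.μ) ∧
    ∀ f : X.M → ℝ, Sm X.I f → ∃ m : ℝ,
      ∫⁻ x in V, ‖f x - m‖ₑ ^ 2 ∂F.μ ≤ C * ∑ k, ∫⁻ x in V, ‖F.D k f x‖ₑ ^ 2 ∂F.μ

/-- LOC-CECH: a gauge near a compact set -/
def CechStmt : Prop := ∀ (X : Mf 4) (ι : Type) [Fintype ι] (F : Fr X.I X.M ι) (K : Set X.M),
  IsCompact K → ∀ (α : Type) (𝒰 : Ultrafilter α) (a : α → ι → X.M → ℝ), (∀ i, Frm F (a i)) →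
  (∀ K', IsCompact K' → L2 F.μ 𝒰 K' fun i => da F (a i)) →
  ∃ O, IsOpen O ∧ K ⊆ O ∧ ∃ u : α → X.M → ℂ, (∀ᶠ i in (𝒰 : Filter α), GauOn X.I (u i) O) ∧
    ∀ k, L2 F.μ 𝒰 O fun i x => a i k x - om F (u i) k x

variable (κ lam ν : Type) [Fintype κ] [Fintype lam] [Fintype ν] [DecidableEq ν]

/-- LOC-GAU: a global gauge -/
def GauStmt : Prop := ∀ (X : Mf 4) (nc : ℕ) (N : Type) [Fintype N] (e : N → En3 κ lam ν)
  (P : Pz X nc e), P.OK → ∀ (α : Type) (𝒰 : Ultrafilter α) (a : α → Option κ → X.M → ℝ),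
  (∀ i, Frm P.bg.F (a i)) → (∀ K, IsCompact K → L2 P.bg.F.μ 𝒰 K fun i => da P.bg.F (a i)) →
  ∃ u : α → X.M → ℂ, (∀ i, Gau X.I (u i)) ∧ ∀ K, IsCompact K →
    ∀ k, L2 P.bg.F.μ 𝒰 K fun i x => a i k x - om P.bg.F (u i) k x

variable {κ lam ν}

section fam
variable (d : Dt κ lam ν) {N : Type} [Fintype N] (ty : N → d.𝓔) (X : Mf 4) (nc : ℕ)
  (T : Type) [NormedAddCommGroup T] [NormedSpace ℝ T] [FiniteDimensional ℝ T]

/-- LOC-LIM: smooth limits of solutions -/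
def LimStmt : Prop := ∀ (s : Pz X 0 fun i => d.e (ty i)) (𝓕 : Fam s nc T), 𝓕.OK →
  ∀ (α : Type) (𝒰 : Ultrafilter α) (t : α → T) (q : α → d.W →₀ ℝ) (c : α → Cfg X.M κ ν) t₀ q₀
    (c₀ : Cfg X.M κ ν), t₀ ∈ 𝓕.Q → Tendsto t 𝒰 (𝓝 t₀) → St.Cv (𝒰 : Filter α) q q₀ →
    (∀ᶠ i in (𝒰 : Filter α), (𝓕.P (t i)).bg.Adm (c i) ∧
      ∀ j, (𝓕.P (t i)).bg.l j (c i) = ((𝓕.P (t i)).pt (q i)).S (c i) j) →
    (∀ K, IsCompact K → ∀ᶠ i in (𝒰 : Filter α),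
      (𝓕.P (t i)).bg.EqOn ((𝓕.P (t i)).pt (q i)) (c i) K) →
    (∀ k, Cmp73.Cv X.I 𝒰 univ (fun i => (c i).a k) (c₀.a k)) →
    Cmp73.Cv X.I 𝒰 univ (fun i => (c i).Φ) c₀.Φ → (𝓕.P t₀).bg.Sol ((𝓕.P t₀).pt q₀) c₀

variable {d ty X nc T} {s : Pz X 0 fun i => d.e (ty i)} (𝓕 : Fam s nc T) (t₀ : T) (i : N)

/-- at `t` the neck `i` is the neck `K₀` reparametrised by `σ` -/
structure Mt {b : Bg X.I X.M κ lam ν nc} {b₀ : Bg X.I X.M κ lam ν nc} (K : Nk (d.e (ty i)) b)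
    (K₀ : Nk (d.e (ty i)) b₀) (g : ℝ → ℝ) : Prop where
  pos : ∀ σ, 0 < deriv g σ
  p : K.p = K₀.p.map g
  q : K.q = K₀.q.map g
  mem : ∀ σ, g σ ∈ K.J ↔ σ ∈ K₀.J
  sur : ∀ τ ∈ K.J, ∃ σ, g σ = τ
  ψ : ∀ y, ∀ σ ∈ K₀.J, K.ψ (y, g σ) = K₀.ψ (y, σ)

/-- near `t₀` the neck `i` moves smoothly -/
structure Mv (K₀ : Nk (d.e (ty i)) (𝓕.P t₀).bg) (g : T × ℝ → ℝ) (V : Set T) : Prop where
  mem : K₀ ∈ (𝓕.P t₀).nk i
  nhd : V ∈ 𝓝 t₀
  sm : ContDiffOn ℝ ∞ g (V ×ˢ univ)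
  id : ∀ σ ∈ Dp K₀.p K₀.q 0, g (t₀, σ) = σ
  mt : ∀ t ∈ V, ∃ K ∈ (𝓕.P t).nk i, Mt i K K₀ fun σ => g (t, σ)

variable {i}

namespace Mt
variable {b : Bg X.I X.M κ lam ν nc} {b₀ : Bg X.I X.M κ lam ν nc} {K : Nk (d.e (ty i)) b}
  {K₀ : Nk (d.e (ty i)) b₀} {g : ℝ → ℝ} (h : Mt i K K₀ g) {x : X.M}
include h

theorem mono : StrictMono g := strictMono_of_deriv_pos h.pos

theorem cont : Continuous g :=
  continuous_iff_continuousAt.2 fun σ => (differentiableAt_of_deriv_ne_zero (h.pos σ).ne').continuousAt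

theorem symm (hx : x ∈ K₀.ψ.target) :
    x ∈ K.ψ.target ∧ K.ψ.symm x = ((K₀.ψ.symm x).1, g (K₀.tm x)) := by
  have h1 : K₀.tm x ∈ K₀.J := K₀.snd_symm hx ▸ K₀.mem_src.1 (K₀.ψ.map_target hx)
  have h2 : K.ψ ((K₀.ψ.symm x).1, g (K₀.tm x)) = x := by
    rw [h.ψ _ _ h1, ← K₀.snd_symm hx]; exact K₀.ψ.right_inv hx
  have h3 : ((K₀.ψ.symm x).1, g (K₀.tm x)) ∈ K.ψ.source := K.mem_src.2 ((h.mem _).2 h1)
  exact ⟨h2 ▸ K.ψ.map_source h3, by rw [← K.ψ.left_inv h3, h2]⟩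

theorem tm (hx : x ∈ K₀.ψ.target) : K.tm x = g (K₀.tm x) := by
  rw [← K.snd_symm (h.symm hx).1, (h.symm hx).2]

theorem tgt (hx : x ∈ K.ψ.target) : x ∈ K₀.ψ.target := by
  have h1 := K.mem_src.1 (K.ψ.map_target hx)
  obtain ⟨σ, e⟩ := h.sur _ h1
  have h2 := (h.mem σ).1 (e ▸ h1)
  have h3 := h.ψ (K.ψ.symm x).1 σ h2
  rw [e, Prod.mk.eta, K.ψ.right_inv hx] at h3
  exact h3 ▸ K₀.ψ.map_source (K₀.mem_src.2 h2)

/-- slices -/
theorem sl (c : Cfg X.M κ ν) {σ : ℝ} (hσ : σ ∈ K₀.J) :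
    En3.sl (K.pb c) (g σ) = En3.sl (K₀.pb c) σ :=
  En3.YC.ext (funext fun k => funext fun y => congrArg (c.a (some k)) (h.ψ y σ hσ))
    (funext fun y => congrArg c.Φ (h.ψ y σ hσ))

end Mt

variable {𝓕 t₀}

theorem Mv.dp {K₀ : Nk (d.e (ty i)) (𝓕.P t₀).bg} {g : T × ℝ → ℝ} {V : Set T}
    (h : Mv 𝓕 t₀ i K₀ g V) {r r' : ℝ} (h0 : 0 ≤ r') (hr : r' < r) (h1 : r' ≤ 2) :
    ∀ᶠ t in 𝓝 t₀, ∀ σ,
    g (t, σ) ∈ Dp (K₀.p.map fun σ => g (t, σ)) (K₀.q.map fun σ => g (t, σ)) r →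
      σ ∈ Dp K₀.p K₀.q r' := by
  have c : ∀ σ, ContinuousAt (fun t => g (t, σ)) t₀ := fun σ =>
    (h.sm.continuousOn.continuousAt (prod_mem_nhds h.nhd univ_mem)).comp (f := fun t => (t, σ))
      (by fun_prop)
  have e1 : ∀ᶠ t in 𝓝 t₀, ∀ a ∈ K₀.p, g (t, a + r') < g (t, a) + r := by
    cases e : K₀.p with
    | none => simp
    | some a =>
      have l := K₀.len a e
      simp only [Option.mem_def, Option.some.injEq, forall_eq']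
      refine (c _).eventually_lt ((c _).add continuousAt_const) ?_
      show g (t₀, a + r') < g (t₀, a) + r
      rw [h.id (a + r') ⟨fun a' k => by rw [Option.mem_unique k e]; linarith,
        fun b k => by linarith [l b k]⟩,
        h.id a ⟨fun a' k => by rw [Option.mem_unique k e]; linarith, fun b k => by linarith [l b k]⟩]
      linarith
  have e2 : ∀ᶠ t in 𝓝 t₀, ∀ b ∈ K₀.q, g (t, b) - r < g (t, b - r') := by
    cases e : K₀.q with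
    | none => simp
    | some b =>
      have l := fun a k => K₀.len a k b e
      simp only [Option.mem_def, Option.some.injEq, forall_eq']
      refine ((c _).sub continuousAt_const).eventually_lt (c _) ?_
      show g (t₀, b) - r < g (t₀, b - r')
      rw [h.id b ⟨fun a k => by linarith [l a k], fun a' k => by rw [Option.mem_unique k e]; linarith⟩,
        h.id (b - r') ⟨fun a k => by linarith [l a k],
          fun a' k => by rw [Option.mem_unique k e]; linarith⟩]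
      linarith
  filter_upwards [e1, e2, h.nhd] with t k1 k2 k3 σ hσ
  obtain ⟨K, -, m⟩ := h.mt t k3
  exact ⟨fun a ha => (m.mono.lt_iff_lt.1 ((k1 a ha).trans_le
      (hσ.1 _ (Option.mem_map.2 ⟨a, ha, rfl⟩)))).le,
    fun a ha => (m.mono.lt_iff_lt.1 ((hσ.2 _ (Option.mem_map.2 ⟨a, ha, rfl⟩)).trans_lt (k2 a ha))).le⟩

/-- every neck is absent near `t₀` or moves smoothly -/
theorem mv_cases (h : 𝓕.OK) (h₀ : t₀ ∈ 𝓕.Q) (i : N) :
    (∀ᶠ t in 𝓝 t₀, (𝓕.P t).Off i) ∨ ∃ K₀ g V, Mv 𝓕 t₀ i K₀ g V := by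
  cases e : s.nk i with
  | some K =>
    obtain ⟨K₀, h1, h2⟩ := h.en t₀ h₀ i K e
    refine .inr ⟨K₀, Prod.snd, 𝓕.Q, h1, h.opn.mem_nhds h₀, contDiffOn_snd, fun _ _ => rfl,
      fun t ht => ?_⟩
    obtain ⟨K', h3, h4⟩ := h.en t ht i K e
    have h5 : K'.ng = K₀.ng := h4.trans h2.symm
    exact ⟨K', h3, fun σ => by simp, by simpa using Pb50.ng_p h5, by simpa using Pb50.ng_q h5,
      fun σ => by simp only [Nd18.Nk.J, Pb50.ng_p h5, Pb50.ng_q h5], fun τ _ => ⟨τ, rfl⟩,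
      fun y σ _ => by rw [Pb50.ng_ψ h5]⟩
  | none =>
    refine (h.nk t₀ h₀ i e).imp_right fun ⟨K₀, h1, a, b, ha, hb, g, V, hV, hg, H⟩ => ?_
    have J : K₀.J = Ioo a b := by ext; simp [Nd18.Nk.J, Jv, ha, hb]
    have m : ∀ t ∈ V, ∃ K ∈ (𝓕.P t).nk i, Mt i K K₀ fun σ => g (t, σ) := fun t ht => by
      obtain ⟨k0, K, k1, k2, k3, k4⟩ := H t ht
      have J' : K.J = Ioo (g (t, a)) (g (t, b)) := by ext; simp [Nd18.Nk.J, Jv, k2, k3]
      have mo := strictMono_of_deriv_pos k0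
      refine ⟨K, k1, k0, by rw [k2, ha]; rfl, by rw [k3, hb]; rfl, fun σ => ?_, fun τ hτ => ?_,
        fun y σ hσ => k4 y σ (J ▸ hσ)⟩
      · rw [J, J']; exact and_congr mo.lt_iff_lt mo.lt_iff_lt
      · rw [J'] at hτ
        exact mem_range_of_exists_le_of_exists_ge (continuous_iff_continuousAt.2 fun σ =>
          (differentiableAt_of_deriv_ne_zero (k0 σ).ne').continuousAt) ⟨a, hτ.1.le⟩ ⟨b, hτ.2.le⟩
    refine ⟨K₀, g, V, h1, hV, hg, fun σ hσ => ?_, m⟩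
    obtain ⟨K, k1, k2⟩ := m t₀ (mem_of_mem_nhds hV)
    obtain rfl := Option.mem_unique k1 h1
    have l := K.len a ha b hb
    obtain ⟨y⟩ : Nonempty (d.e (ty i)).Y.M := inferInstance
    have k3 : EqOn (fun σ => g (t₀, σ)) id (Ioo a b) := fun σ hσ => congrArg Prod.snd
      (K.ψ.injOn (K.mem_src.2 ((k2.mem σ).2 (J ▸ hσ))) (K.mem_src.2 (J ▸ hσ)) (k2.ψ y σ (J ▸ hσ)))
    refine k3.closure k2.cont continuous_id ?_
    rw [closure_Ioo (by linarith)]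
    exact ⟨by simpa using hσ.1 a ha, by simpa using hσ.2 b hb⟩

end fam

/-- the cores exhaust the piece -/
theorem sub_core {X : Mf 4} {nc : ℕ} {N : Type} [Fintype N] {e : N → En3 κ lam ν} (P : Pz X nc e)
    {K : Set X.M} (hK : IsCompact K) : ∃ r, K ⊆ P.core r := by
  have h : ∀ i, ∃ r : ℝ, ∀ L ∈ P.nk i, ∀ x ∈ K, ‖L.tm x‖ ≤ r := fun i => by
    cases P.nk i with
    | none => simp
    | some L => simpa using hK.exists_bound_of_continuousOn L.cont.continuousOn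
  choose r hr using h
  refine ⟨∑ i, |r i|, fun x hx i s L hL _ ⟨y, hy, e⟩ => ?_⟩
  have h1 := hr i L hL x hx
  rw [← e, L.tm_ψ y (L.mem_src.2 hy.2.1)] at h1
  have h2 := Finset.single_le_sum (f := fun i => |r i|) (fun _ _ => abs_nonneg _) (Finset.mem_univ i)
  have h3 : M.pm s * y.2 ≤ |y.2| := by cases s <;> simp [M.pm, le_abs_self, neg_le_abs]
  exact (hy.2.2.trans_le (h3.trans (h1.trans ((le_abs_self _).trans h2)))).false

end Crest.Agent.X212.Loc74
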