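import Crest.Agent.X212.Loc74.Cou
import Crest.Agent.X212.Prm93.H

/-!
# Row 212, SW-LOC (helper74): change of frame, patching of the local Coulomb gauges
-/

set_option autoImplicit false
set_option linter.unusedSectionVars false
noncomputable section
open scoped Manifold ContDiff Topology InnerProductSpace
open MeasureTheory Set Function Filter

namespace Crest.Agent.X212.Loc74
open An An.Pre Sob92 Ell97 Lw78 Map77 Dec35 Hm83
open Prm93 (Mix)
open Cmp73 (Cv)
open Wz78 (SA dv_mul dv_sum' dv_sub')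

variable {E : Type} [NormedAddCommGroup E] [NormedSpace ℝ E] [FiniteDimensional ℝ E]
  [MeasurableSpace E] [BorelSpace E]
  {HM : Type} [TopologicalSpace HM] {I : ModelWithCorners ℝ E HM} [I.Boundaryless]
  {M : Type} [TopologicalSpace M] [ChartedSpace HM M] [IsManifold I ∞ M]
  [MeasurableSpace M] [T2Space M] [BorelSpace M] [SecondCountableTopology M]
  {ι : Type} [Fintype ι] {α : Type} {l : Filter α} {F F' : Fr I M ι} {C : ℕ → ℝ}

/-- the action of a matrix on one-forms -/
def t1 (A : ι → ι → M → ℝ) (g : ι → M → ℝ) (k : ι) (x : M) : ℝ := ∑ b, A k b x * g b x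

/-- the action on two-forms -/
def t2 (A : ι → ι → M → ℝ) (x : M) : CL (Fm (ι × ι) ℝ) (Fm (ι × ι) ℝ) :=
  tp fun s => ∑ r : ι × ι, (A s.1 r.1 x * A s.2 r.2 x) • Map77.pj ℝ r

theorem da_D {f : M → ℝ} {x : M} (h : SA I f x) : da F (fun k => F.D k f) x = 0 :=
  fm_ext fun s => sub_eq_zero.2 ((Wz78.frm F).br s.1 s.2 f x h)

theorem da_sub {a a' : ι → M → ℝ} {x : M} (h : ∀ k, SA I (a k) x) (h' : ∀ k, SA I (a' k) x) :
    da F (fun k y => a k y - a' k y) x = da F a x - da F a' x := fm_ext fun s => by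
  simp only [da, D_def, dv_sub' (h _) (h' _), PiLp.sub_apply, mul_sub, Finset.sum_sub_distrib]
  ring

/-- the exterior derivative is a tensor -/
theorem da_mix {A : ι → ι → M → ℝ} (h : Mix F.toPre F'.toPre A) (hA : ∀ a b, Sm I (A a b))
    {g : ι → M → ℝ} (hs : ∀ k, Sm I (g k)) (hp : ∀ k x, ∑ j, F.P k j x * g j x = g k x) (x : M) :
    da F' (t1 A g) x = t2 A x (da F g x) := fm_ext fun s => by
  set v := fun m => ∑ k, F'.c s.1 s.2 k x * A k m x - ∑ r : ι × ι,
    A s.1 r.1 x * A s.2 r.2 x * F.c r.1 r.2 m x - (F'.D s.1 (A s.2 m) x - F'.D s.2 (A s.1 m) x)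
  have k : ∀ g : ι → M → ℝ, (∀ k, SA I (g k) x) →
      da F' (t1 A g) x s = t2 A x (da F g x) s - ∑ m, v m * g m x := fun g hg => by
    have e : ∀ i j, F'.D i (t1 A g j) x =
        ∑ m, F'.D i (A j m) x * g m x + ∑ b, ∑ c, A i b x * A j c x * F.D b (g c) x := fun i j => by
      rw [Finset.sum_comm, ← Finset.sum_add_distrib]
      refine (dv_sum' _ fun m => SA.mul (hA j m x) (hg m)).trans (Finset.sum_congr rfl fun m _ => ?_)
      rw [dv_mul (hA j m x) (hg m), ← D_def, ← D_def, h.D i (g m), Finset.mul_sum]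
      exact congrArg _ (Finset.sum_congr rfl fun b _ => by simp only [smul_eq_mul]; ring)
    have e1 : ∑ k, F'.c s.1 s.2 k x * t1 A g k x = ∑ m, (∑ k, F'.c s.1 s.2 k x * A k m x) * g m x := by
      simp only [t1, Finset.mul_sum, Finset.sum_mul, mul_assoc]
      exact Finset.sum_comm
    have e2 : ∑ b, ∑ c, A s.1 b x * A s.2 c x * ∑ m, F.c b c m x * g m x =
        ∑ m, (∑ b, ∑ c, A s.1 b x * A s.2 c x * F.c b c m x) * g m x := by
      simp only [Finset.mul_sum, Finset.sum_mul, mul_assoc]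
      exact (Finset.sum_congr rfl fun _ _ => Finset.sum_comm).trans Finset.sum_comm
    have e3 : ∑ b, ∑ c, A s.2 b x * A s.1 c x * F.D b (g c) x =
        ∑ b, ∑ c, A s.1 b x * A s.2 c x * F.D c (g b) x := by
      rw [Finset.sum_comm]; simp only [mul_comm (A s.2 _ x)]
    simp only [da, t2, tp_apply, _root_.sum_apply, smul_apply, Map77.pj_apply, smul_eq_mul, e, e1, v,
      Fintype.sum_prod_type, mul_sub, sub_mul, Finset.sum_sub_distrib, e2, e3]
    ring
  have k1 := Wz78.sep F x v fun f hf => by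
    have := k (fun k => F.D k f) fun k => dv_smoothAt (F.sm k x) hf.self_of_nhds
    rw [show t1 A (fun k => F.D k f) = fun k => F'.D k f from funext fun k => (h.D k f).symm,
      da_D hf.self_of_nhds, da_D hf.self_of_nhds, map_zero] at this
    simpa [D_def] using this
  rw [k g fun k => hs k x, sub_eq_self, ← Finset.sum_congr rfl fun m _ => congrArg _ (hp m x)]
  simp only [Finset.mul_sum, ← mul_assoc]
  rw [Finset.sum_comm]
  simp only [← Finset.sum_mul, k1, zero_mul, Finset.sum_const_zero]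

theorem cv_tp {β X Y : Type} [Fintype β] [NormedAddCommGroup X] [InnerProductSpace ℝ X]
    [NormedAddCommGroup Y] [NormedSpace ℝ Y] {f : α → M → β → Y →L[ℝ] X} {g : M → β → Y →L[ℝ] X}
    (h : ∀ a, Cv I l univ (fun i x => f i x a) fun x => g x a) :
    Cv I l univ (fun i x => tp (f i x)) fun x => tp (g x) := by
  simpa only [tp_eq] using Cv.sum fun a => (Cv.const (Map77.ij X a)).clm_comp (h a)

variable [l.NeBot] (hF : F.Tame C) {o : ι → ι → ι → ι → M → ℝ}
  (ho : ∀ x, Vol (fun a b => F.P a b x) fun a b c d => o a b c d x) (hc : ∀ a b c d, F.Cb (o a b c d))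
  {m : α → ι → ι → M → ℝ} (sm : ∀ᶠ i in l, ∀ a b, Sm I (m i a b))
  (cm : ∀ a b, Cv I l univ (fun i => m i a b) (F.P a b)) {g : α → ι → M → ℝ}
  (hs : ∀ i k, Sm I (g i k)) (hp : ∀ i k x, ∑ j, F.P k j x * g i j x = g i k x)
include hF ho hc sm cm hs hp

theorem stpA {z : M} {j : ℕ} (h : ∀ k, HB l z F.toPre 2 (j + 1) fun i => g i k)
    (hd : ∀ᶠ x in 𝓝 z, ∀ i, dv1 F (g i) x = 0)
    (hr : HB l z F.toPre 2 (j + 1) fun i x => q2 F o x (t2 (m i) x (da F (g i) x))) (k : ι) :
    HB l z F.toPre 2 (j + 2) fun i => g i k := by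
  obtain ⟨_, hA⟩ := good_d hF ho hc
  let G := fun i x (s r : ι × ι) => F.P s.1 r.1 x * F.P s.2 r.2 x - m i s.1 r.1 x * m i s.2 r.2 x
  have cG : ∀ s r, Cv I l univ (fun i x => G i x s r) fun _ => 0 := fun s r =>
    (((Cv.fixed' (F.P_sm _ _)).mul (.fixed' (F.P_sm _ _))).sub ((cm _ _).mul (cm _ _))).congr
      (fun _ _ => .of_forall fun _ => rfl) fun _ _ => (sub_self _).symm
  have sG : ∀ᶠ i in l, ∀ s r, Sm I fun x => G i x s r := sm.mono fun i k s r =>
    ((F.P_sm _ _).mul (F.P_sm _ _)).sub ((k _ _).mul (k _ _))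
  have q := (cb_q2 hF hc).choose_spec.1
  have ce : ∀ b, Cv I l univ (fun i x => (i2 ℝ _ ∘L q2 F o x) ∘L tp fun s =>
      ∑ c, (G i x s (b, c) - G i x s (c, b)) • Map77.pj ℝ c) fun _ => 0 := fun b =>
    (((Cv.const _).clm_comp (.fixed' q)).clm_comp (cv_tp fun s => .sum fun c =>
      ((cG s _).sub (cG s _)).smul (.const _))).congr (fun _ _ => .of_forall fun _ => rfl)
      fun x _ => by simp [tp_eq]
  refine (HB.ell (u := fun i => fm (g i)) hF hA (cliff_d ho) (.of_forall fun i x => q1_fm (hp i · x))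
    (.pi h) ce (fun b => sG.mono fun i k => ((contMDiff_const.clm_comp q).clm_comp ?_))
    (.clm (i2 ℝ _) (((HB.fixed q).app (.pi (f := fun i x => WithLp.toLp 2 fun s : ι × ι =>
      -∑ r : ι × ι, G i x s r • ∑ k, F.c r.1 r.2 k x • g i k x) fun s => (HB.sum fun r =>
        (HB.of_mbOn (sG.mono fun _ k => k s r) fun n => (cG s r).mb n z trivial).smul (.sum fun k =>
          (HB.fixed (F.c_sm _ _ k)).smul (h k))).neg)).add hr))
    ((tendsto_snd.eventually hd).mono fun q k => ?_)).clm (Map77.pj ℝ k)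
  · simp only [tp_eq]
    exact contMDiff_finsetSum fun s _ => contMDiff_const.clm_comp (contMDiff_finsetSum fun c _ =>
      ((k s _).sub (k s _)).smul contMDiff_const)
  rw [app_d hF (hs _) (hp _), k, map_zero, zero_add]
  simp only [ContinuousLinearMap.comp_apply, ← map_sum, ← map_add]
  refine congrArg _ (congrArg _ (fm_ext fun s => ?_))
  have e := congrArg (· s) (da_mix (F := F) (F' := F) (fun a x => (F.P_e a x).symm) F.P_sm (hs q.1)
    (hp q.1) q.2)
  rw [show t1 F.P (g q.1) = g q.1 from funext₂ (hp q.1)] at e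
  have e1 : ∑ b, ∑ c, G q.1 q.2 s (c, b) * F.D b (g q.1 c) q.2 =
      ∑ b, ∑ c, G q.1 q.2 s (b, c) * F.D c (g q.1 b) q.2 := Finset.sum_comm
  rw [e]
  simp only [PiLp.add_apply, WithLp.ofLp_sum, Finset.sum_apply, tp_apply, _root_.sum_apply,
    smul_apply, Map77.pj_apply, D_ev (sm_fm (hs _)), smul_eq_mul, t2, sub_mul,
    Finset.sum_sub_distrib, fm, e1, Fintype.sum_prod_type]
  simp only [G, da, mul_sub, sub_mul, Finset.sum_sub_distrib]
  ring

/-- **one gauge for all orders** -/
theorem patch (h0 : 0 < Module.finrank ℝ E) (h : ∀ z k, HB l z F.toPre 2 1 fun i => g i k) :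
    ∃ χ : α → M → ℝ, (∀ i, Sm I (χ i)) ∧ ∀ n, (0 < n → ∀ z, HB l z F.toPre 2 n fun i x =>
      q2 F o x (t2 (m i) x (da F (g i) x))) →
      ∀ z k, HB l z F.toPre 2 (n + 1) fun i x => g i k x - F.D k (χ i) x := by
  have := Manifold.locallyCompact_of_finiteDimensional (M := M) I
  choose V hV ξ s1 s2 s3 using fun x => coulomb h0 hF hs hp (h x)
  obtain ⟨ρ, hρ⟩ := SmoothPartitionOfUnity.exists_isSubordinate I isClosed_univ
    (fun x => interior (V x)) (fun _ => isOpen_interior)
    fun x _ => mem_iUnion.2 ⟨x, mem_interior_iff_mem_nhds.2 (hV x)⟩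
  have sχ : ∀ i, Sm I fun y => ∑ᶠ x, ρ x y • ξ x i y := fun i =>
    ρ.contMDiff_finsum_smul fun x y _ => s1 x i y
  have A : ∀ n, (0 < n → ∀ z, HB l z F.toPre 2 n fun i x => q2 F o x (t2 (m i) x (da F (g i) x))) →
      ∀ x, ∀ z ∈ interior (V x), ∀ k,
        HB l z F.toPre 2 (n + 1) fun i y => g i k y - F.D k (ξ x i) y := by
    intro n
    induction n with
    | zero => exact fun _ x z _ k => (h z k).sub ((s3 x z).D k)
    | succ n ih =>
      exact fun H x z hz => stpA hF ho hc sm cm (fun i k => (hs i k).sub (F.sm_D (s1 x i) k))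
        (fun i k y => by simp only [mul_sub, Finset.sum_sub_distrib, hp, projD])
        (ih (fun _ z => (H n.succ_pos z).pred) x z hz) (mem_of_superset (mem_interior_iff_mem_nhds.1 hz)
          fun y hy i => s2 x i y hy) ((H n.succ_pos z).eq (.of_forall fun i y => by
            rw [da_sub (hs i · y) fun k => F.sm_D (s1 x i) k y, da_D (s1 x i y), sub_zero]))
  refine ⟨_, sχ, fun n H z k => ?_⟩
  have z0 := mem_interior_iff_mem_nhds.2 (hV z)
  have k1 : HB l z F.toPre 2 (n + 2) fun i y => ∑ᶠ x, ρ x y • ξ x i y - ξ z i y := by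
    refine (HB.fsum (ρ.fintsupport z) fun x hx => (HB.fixed (ρ x).contMDiff).smul
      (((s3 x z).sub (s3 z z)).pred.succ fun a => ((A n H z z z0 a).sub (A n H x z
        (hρ x ((ρ.mem_fintsupport_iff z x).1 hx)) a)).eq (.of_forall fun i y => ?_))).congr
      (.of_forall fun i => (sχ i).sub (s1 z i))
      ((tendsto_snd.eventually (ρ.eventually_finsupport_subset z)).mono fun q k => ?_)
    · exact (dv_sub' (s1 x i y) (s1 z i y)).trans (by simp only [D_def]; ring)
    · simp only [smul_sub, Finset.sum_sub_distrib, ← Finset.sum_smul,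
        ρ.sum_finsupport' q.2 trivial k, one_smul]
      exact congrArg (· - _) (finsum_eq_sum_of_support_subset _ fun x hx => k (by
        simpa using left_ne_zero_of_smul hx))
  exact ((A n H z z z0 k).sub (k1.D k)).eq (.of_forall fun i y => by
    rw [D_def _ k fun y => _ - _, dv_sub' (sχ i y) (s1 z i y)]; simp only [D_def]; ring)

end Crest.Agent.X212.Loc74
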