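import Crest.Agent.X212.Loc74.Nk
import Crest.Agent.X212.Loc74.Gf

/-!
# Row 212, SW-LOC (helper74): the bootstrap for converging backgrounds
-/

set_option autoImplicit false
set_option linter.unusedSectionVars false
noncomputable section
open scoped Manifold ContDiff Topology InnerProductSpace
open MeasureTheory Set Function Filter

namespace Crest.Agent.X212.Loc74
open An An.Pre Sob92 Lw78 Sw
open Prm93 (Mix)
open M (Mf)

variable {κ lam ν : Type} [Fintype κ] [Fintype lam] [Fintype ν] [DecidableEq ν] {α : Type}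
  {l : Filter α} {j p : ℕ} {X : Mf 4} {nc : ℕ} {V : Type} [NormedAddCommGroup V] [NormedSpace ℝ V]
  {b₀ : Bg X.I X.M κ lam ν nc} {b : α → Bg X.I X.M κ lam ν nc}
  {m : α → Option κ → Option κ → X.M → ℝ} {z : X.M} {c : α → Cfg X.M κ ν}

variable (l b₀ b m) in
/-- the backgrounds `b i` converge to `b₀`; `m i` is the change of frame -/
structure Nb : Prop where
  ok₀ : b₀.OK
  ok : ∀ᶠ i in l, (b i).OK ∧ (b i).B = b₀.B ∧ (b i).m = b₀.m ∧ (b i).w = b₀.w ∧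
    Mix b₀.F.toPre (b i).F.toPre (m i)
  sm : ∀ᶠ i in l, ∀ a k, Sm X.I (m i a k)
  cm : ∀ a k, Cmp73.Cv X.I l univ (fun i => m i a k) (b₀.F.P a k)
  A : ∀ a, Cmp73.MBOn X.I l univ fun i => (b i).A a
  c : ∀ a k n, Cmp73.MBOn X.I l univ fun i => (b i).F.c a k n
  ms : Cmp73.MBOn X.I l univ fun i => (b i).ms
  om : Cmp73.MBOn X.I l univ fun i => (b i).om

namespace Nb
variable (h : Nb l b₀ b m)
include h

theorem hm (a k : Option κ) : HB l z b₀.F.toPre p j fun i => m i a k :=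
  .of_mbOn (h.sm.mono fun _ s => s a k) fun n => (h.cm a k).mb n z trivial

theorem hA (a : Option κ) : HB l z b₀.F.toPre p j fun i => (b i).A a :=
  .of_mbOn (h.ok.mono fun _ s => (s.1.cA a).choose_spec.1) fun n => h.A a n z trivial

theorem fc0 : HB l z b₀.F.toPre p j fun i => (b i).fc ⟨0, 0⟩ := .of0 <| .pi fun s => by
  have D := fun a k => HB.sum fun n => (h.hm (z := z) (j := j) a n).smul ((h.hA (p := 0) k).D n)
  have M := fun a k => HB.bil (.mul ℝ _) (holL 0) (h.hA (z := z) (j := j) a) (h.hA k)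
  refine ((HB.const (1 / 8 : ℝ)).smul (.bil (innerSL ℝ) (holL 0) (.clm hsL
    (.fixed (cb_jp h.ok₀).choose_spec.1)) (.clm hsL ((((D s.1 s.2).sub (D s.2 s.1)).add
      ((M s.1 s.2).sub (M s.2 s.1))).sub (.sum fun k => (HB.of_mbOn (.of_forall fun i =>
        (b i).F.c_sm s.1 s.2 k) fun n => h.c _ _ k n z trivial).smul (h.hA k)))))).eq
    (h.ok.mono fun i k x => ?_)
  have W : (b i).W ⟨0, 0⟩ = (b i).A := by ext i x : 2; simp [Bg.W]
  simp only [Bg.fc, W, Wz78.curv, ← D_def, k.2.2.2.2.D, Bg.jp, k.2.2.1]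
  rfl

variable (hc : ∀ᶠ i in l, (b i).Adm (c i)) (h0 : HB l z b₀.F.toPre 0 1 fun i => (c i).Φ)
include h0

theorem fc (k : HB l z b₀.F.toPre 2 (j + 1) fun i => (c i).Φ)
    (he : HB l z b₀.F.toPre 2 (j + 1) fun i => (b i).eC (c i)) :
    HB l z b₀.F.toPre 2 (j + 1) fun i x => b₀.p2 x ((b i).fc (c i) x - (b i).fc ⟨0, 0⟩ x) := by
  obtain ⟨_, hF⟩ := h.ok₀.tame
  have P := HB.fixed (l := l) (z := z) (F := b₀.F.toPre) (p := 0) (j := j + 1)
    (cb_p2 h.ok₀).choose_spec.1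
  have q : HB l z b₀.F.toPre 2 (j + 1) fun i x => b₀.qd x ((c i).Φ x) ((c i).Φ x) := .pi fun s =>
    have k' := (Cb_clm (ContinuousLinearMap.mul ℝ _ b₀.m.J) (Cb_bil (.mul ℝ _) (h.ok₀.cρ s.1)
      (h.ok₀.cρ s.2))).choose_spec.1
    (HB.const (1 / 8 : ℝ)).smul (.alg hF (innerSL ℝ) ((HB.fixed k').app k) ((HB.fixed k').app h0) k h0)
  refine (((he.add (.of_mbOn (h.ok.mono fun _ s => s.1.com.choose_spec.1) fun n =>
    h.om n z trivial)).add (P.app ((HB.const b₀.w).smul q))).sub (P.app h.fc0)).eq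
    (h.ok.mono fun i k x => ?_)
  simp only [Bg.eC, Bg.p2, Bg.qd, k.2.1, k.2.2.1, k.2.2.2.1, map_sub]
  abel

include hc

theorem stpS [l.NeBot] (hr : HB l z b₀.F.toPre 2 (j + 1) fun i => (b i).eD (c i))
    (ha : ∀ k, HB l z b₀.F.toPre 2 (j + 2) fun i => (c i).a k)
    (k : HB l z b₀.F.toPre 2 (j + 1) fun i => (c i).Φ) :
    HB l z b₀.F.toPre 2 (j + 2) fun i => (c i).Φ := by
  have hb := h.ok₀
  obtain ⟨_, hF⟩ := hb.tame
  obtain ⟨_, hA⟩ := good_s hb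
  have ρ := fun a => (hb.cρ a).choose_spec.1
  have hp : ∀ᶠ i in l, ∀ x, (sOp b₀).p x ((c i).Φ x) = (c i).Φ x := (hc.and h.ok).mono
    fun i k x => (congrArg (·.p x ((c i).Φ x)) k.2.2.2.1).symm.trans (Win45.p_of k.2.1 (k.1.pΦ x))
  have k1 := fun i => (Cb_bil (.mul ℝ _) (hb.cρ i) (cb_jp hb)).choose_spec.1
  have hv := hr.sub (((HB.sum fun a => HB.bil (.mul ℝ _) (holL 0) (.fixed (ρ a)) (h.hA a)).add
    (.of_mbOn (h.ok.mono fun _ s => s.1.cms.choose_spec.1) fun n => h.ms n z trivial)).app k)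
  have hm : ∀ {p j}, (∀ a, HB l z b₀.F.toPre p j fun i => (c i).a a) → HB l z b₀.F.toPre p j
      fun i x => -∑ a, (c i).a a x • (b₀.m.ρ a x * b₀.jp x) := fun h =>
    (HB.sum fun i => (h i).smulR (.fixed (k1 i))).neg
  have he : ∀ k, Cmp73.Cv X.I l univ (fun i x => b₀.m.ρ k x - ∑ a, m i a k x • b₀.m.ρ a x)
      fun _ => 0 := fun k => ((Cmp73.Cv.fixed' (ρ k)).sub (.sum fun a => (h.cm a k).smul
        (.fixed' (ρ a)))).congr (fun _ _ => .of_forall fun _ => rfl) fun x _ => by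
    simp only [b₀.F.P_symm _ k, show b₀.F.P = b₀.B.P from hb.G.P, (hb.m.cl x trivial).proj k, sub_self]
  have hs : ∀ k, ∀ᶠ i in l, Sm X.I fun x => b₀.m.ρ k x - ∑ a, m i a k x • b₀.m.ρ a x := fun k =>
    h.sm.mono fun i s => (ρ k).sub (contMDiff_finsetSum fun a _ => (s a k).smul (ρ a))
  have e : ∀ᶠ q : α × X.M in l ×ˢ 𝓝 z, (sOp b₀).app b₀.F (c q.1).Φ q.2 =
      ∑ k, (b₀.m.ρ k q.2 - ∑ a, m q.1 a k q.2 • b₀.m.ρ a q.2) (b₀.F.D k (c q.1).Φ q.2) +
      ((-∑ a, (c q.1).a a q.2 • (b₀.m.ρ a q.2 * b₀.jp q.2)) ((c q.1).Φ q.2) + ((b q.1).eD (c q.1) q.2 -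
        (∑ a, b₀.m.ρ a q.2 * (b q.1).A a q.2 + (b q.1).ms q.2) ((c q.1).Φ q.2))) :=
    (tendsto_fst.eventually h.ok).mono fun q k => by
      have := app_s (b := b q.1) (c q.1) q.2
      rw [Op.app, k.2.2.2.2.op] at this
      simp only [sOp, Bg.jp, k.2.2.1] at this
      rw [Bg.jp, ← this]
      simp [Op.app, Pre.op, sOp, -Fintype.sum_option]
  have g := fun g : HB l z b₀.F.toPre 2 (j + 1) fun i x => (-∑ a, (c i).a a x •
    (b₀.m.ρ a x * b₀.jp x)) ((c i).Φ x) => HB.ell hF hA (cliff_s hb) hp k he hs (g.add hv) e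
  obtain _ | _ | j := j
  · exact g (.bil (.id ℝ _) (holR 2) (hm fun i => (ha i).pred) h0)
  · exact k.ell' hF hA (cliff_s hb) hp he hs ((hm fun i => (ha i).pred).ab2 hF
      (hm fun i => (ha i).lp8 hF) k h0 hv) e
  · exact g ((HB.sum fun i => HB.alg hF (.lsmul ℝ ℝ) (ha i).pred
      (((ha i).of_le (by omega : 1 + 3 ≤ _)).sob0 X.dim.le) ((HB.fixed (k1 i)).app k)
      ((HB.fixed (k1 i)).app h0)).neg.eq (.of_forall fun d x => by simp [-Fintype.sum_option]))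

omit h0 hc in
/-- **the bootstrap** -/
theorem boot [l.NeBot] {g : α → Option κ → X.M → ℝ} (hg : ∀ i, Frm b₀.F (g i)) {C : ℝ}
    (hc : ∀ᶠ i in l, (b i).Adm (c i) ∧ (c i).a = t1 (m i) (g i) ∧ ∀ x, ‖(c i).Φ x‖ ≤ C)
    (h1 : ∀ z k, HB l z b₀.F.toPre 2 1 fun i => g i k)
    (H : ∀ u : α → X.M → ℂ, (∀ i, Gau X.I (u i)) → ∀ j,
      (∀ z, IH l j b₀.F.toPre z fun i => (b i).act (u i) (c i)) → ∀ z,
      (HB l z b₀.F.toPre 2 (j + 1) fun i => (b i).eD ((b i).act (u i) (c i))) ∧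
        HB l z b₀.F.toPre 2 (j + 1) fun i => (b i).eC ((b i).act (u i) (c i))) :
    ∃ u : α → X.M → ℂ, (∀ i, Gau X.I (u i)) ∧
      ∀ j z, IH l j b₀.F.toPre z fun i => (b i).act (u i) (c i) := by
  obtain ⟨_, hF⟩ := h.ok₀.tame
  obtain ⟨χ, s, k⟩ := patch hF (vol4 h.ok₀) h.ok₀.co h.sm h.cm (fun i => (hg i).sm)
    (fun i => (hg i).pr) (X.dim.symm ▸ four_pos) h1
  have u := fun i => (Cyl58.gau_exp b₀.F (s i)).1
  refine ⟨_, u, fun j => ?_⟩
  have ad := (hc.and h.ok).mono fun i k => Pb50.adm_of fun x =>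
    (Pb50.LA.of_adm k.1.1 x).act k.2.1 ((u i).1 x)
  have h0 := fun z => HB.one0 (z := z) (F := b₀.F.toPre) (ad.mono fun _ k => k.sΦ)
    ⟨C, (tendsto_fst.eventually (hc.and h.ok)).mono fun q k =>
      (Pb50.norm_act k.2.1 ((u _).2 _)).trans_le (k.1.2.2 _)⟩
  have ha := fun n H z a => HB.eq (f' := fun i => ((b i).act (fun x => Complex.exp
    (χ i x • Complex.I)) (c i)).a a) (HB.sum fun e => (h.hm a e).smul (k n H z e))
    ((hc.and h.ok).mono fun i k x => by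
      refine (congrArg₂ (· - ·) (congrFun (congrFun k.1.2.1 a) x)
        ((Cyl58.gau_exp (b i).F (s i)).2 a x)).trans ?_
      simp only [t1, k.2.2.2.2.2.D, smul_eq_mul, mul_sub, Finset.sum_sub_distrib])
  induction j with
  | zero => exact fun z => ⟨ha 0 (fun k => absurd k (lt_irrefl 0)) z, (h0 z).of0, h0 z⟩
  | succ j ih =>
    have k1 := ha (j + 1) fun _ z => (h.fc (h0 z) (ih z).Φ (H _ u j ih z).2).eq
      ((hc.and (h.ok.and h.sm)).mono fun i k x => by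
        rw [Pb50.fc_act k.2.1.1 (fun a => k.1.1.sa a x) (.of_gau (u i) x), fc_da k.2.1.1 k.1.1.sa,
          add_sub_cancel_left, k.1.2.1, da_mix k.2.1.2.2.2.2 k.2.2 (hg i).sm (hg i).pr, p2_eq h.ok₀])
    exact fun z => ⟨k1 z, h.stpS ad (h0 z) (H _ u j ih z).1 (k1 z) (ih z).Φ, h0 z⟩

end Nb

end Crest.Agent.X212.Loc74
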