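import Crest.Agent.X212.Loc74.Ell
import Crest.Agent.X212.Lw78.Bt

/-!
# Row 212, SW-LOC (helper74): the Coulomb gauge near a point
-/

set_option autoImplicit false
set_option linter.unusedSectionVars false
noncomputable section
open scoped Manifold ContDiff Topology InnerProductSpace
open MeasureTheory Set Function Filter

namespace Crest.Agent.X212.Loc74
open An An.Pre Sob92 Ell97 Lw78 Lw78.Wn Map77 Dec35 Hm83

variable {E : Type} [NormedAddCommGroup E] [NormedSpace ℝ E] [FiniteDimensional ℝ E]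
  [MeasurableSpace E] [BorelSpace E]
  {HM : Type} [TopologicalSpace HM] {I : ModelWithCorners ℝ E HM} [I.Boundaryless]
  {M : Type} [TopologicalSpace M] [ChartedSpace HM M] [IsManifold I ∞ M]
  [MeasurableSpace M] [T2Space M] [BorelSpace M] [SecondCountableTopology M]
  {ι : Type} [Fintype ι]
  {V W : Type} [NormedAddCommGroup V] [InnerProductSpace ℝ V] [FiniteDimensional ℝ V]
  [NormedAddCommGroup W] [InnerProductSpace ℝ W] [FiniteDimensional ℝ W] {α : Type}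
  {l : Filter α} {F : Fr I M ι} {C C' : ℕ → ℝ}

theorem small_nhd (h0 : 0 < Module.finrank ℝ E) (F : Pre I M ι) (z : M) {ε : ℝ} (hε : 0 < ε) :
    ∃ U ∈ 𝓝 z, F.μ U < ENNReal.ofReal ε := by
  have : Nontrivial E := Module.nontrivial_of_finrank_pos h0
  have := Manifold.locallyCompact_of_finiteDimensional (M := M) I
  have := Manifold.metrizableSpace I M
  obtain ⟨O, ρ, h, -⟩ := F.dens z
  have h1 : F.μ {z} = 0 := by
    rw [Prm93.dens_apply h (singleton_subset_iff.2 h.2.1) (by simp), image_singleton]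
    exact setLIntegral_measure_zero _ _ (by rw [leb, measure_singleton])
  obtain ⟨U, h2, h3, h4⟩ := Set.exists_isOpen_lt_of_lt (μ := F.μ) {z} _
    (h1.trans_lt (ENNReal.ofReal_pos.2 hε))
  exact ⟨U, h3.mem_nhds (h2 rfl), h4⟩

theorem proj' (hF : F.Tame C) {A : Op M ι V W} (hA : A.Good F C') (hc : A.CliffL F) {c : ℝ}
    (h0 : ∀ ξ : Sec I A.p, F.nrm 0 ξ.1 ≤ c * F.nrm 0 (A.app F ξ.1)) {β : M → W} (hα : Fl F.toPre β)
    (hq : ∀ x, A.q x (β x) = β x) : ∃ ξ, Fl F.toPre ξ ∧ (A.adj F).app F (β - A.app F ξ) = 0 ∧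
      F.nrm 0 (A.app F ξ) ≤ F.nrm 0 β ∧ F.nrm 0 ξ ≤ |c| * F.nrm 0 β := by
  obtain ⟨C'', hB⟩ := good_adj hF hA
  obtain ⟨d, -, h⟩ := llw F C C' hF V W A hA hc c h0
  obtain ⟨K, -, h⟩ := h 0 0
  obtain ⟨ξ, f1, p1, e, -⟩ := h _ (fl_op hF hB hα hq) (q_app hB β)
  have f2 := fl_op hF hA f1 p1
  have f3 : Fl F.toPre (β - A.app F ξ) := by
    rw [sub_eq_add_neg]
    exact fl_add hα (fl_app (Cb_const (-ContinuousLinearMap.id ℝ W)) f2)
  have p3 : ∀ x, A.q x ((β - A.app F ξ) x) = (β - A.app F ξ) x := fun x => by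
    rw [Pi.sub_apply, map_sub, hq, q_app hA]
  have e3 : (A.adj F).app F (β - A.app F ξ) = 0 := funext fun x => by
    have := app_add (F := F) (A := A.adj F) f3.sm f2.sm x
    rwa [sub_add_cancel, e, right_eq_add] at this
  obtain ⟨y, hy⟩ := ex_isp hF f1 p1 1
  obtain ⟨z, hz⟩ := ex_isp hF f3 p3 1
  have a1 : Hs F A 0 z = 0 := (is_op hB hz f3.sm).unique (e3 ▸ Is.zero)
  have a2 := adjH hF hA y z
  have a3 := (hz.incl zero_le_one).add (is_op hA hy f1.sm)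
  have a4 : ‖F.incl 1 0 A.p y‖ ≤ |c| * ‖A.H F 0 y‖ :=
    H_le (f := fun x => ‖F.incl 1 0 A.p x‖) (g := fun x => |c| * ‖A.H F 0 x‖) (by fun_prop)
      (by fun_prop) (fun u => by
        rw [incl_toH zero_le_one, H_toH hA, norm_toH, norm_toH]
        exact (h0 u).trans (mul_le_mul_of_nonneg_right (le_abs_self c) (nrm_nonneg _ _))) y
  rw [sub_add_cancel] at a3
  rw [a1, inner_zero_right, real_inner_comm] at a2
  have a5 : ‖A.H F 0 y‖ ≤ F.nrm 0 β := by
    rw [← a3.norm hα.sm]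
    refine (abs_le_of_sq_le_sq' ?_ (norm_nonneg _)).2
    rw [norm_add_sq_real, a2]
    linarith [sq_nonneg ‖F.incl 1 0 A.q z‖]
  exact ⟨ξ, f1, e3, (is_op hA hy f1.sm).norm f2.sm ▸ a5,
    hy.norm_zero ▸ a4.trans (mul_le_mul_of_nonneg_left a5 (abs_nonneg c))⟩

variable (F) in
/-- the operator `ξ ↦ (dξ, m ξ)` -/
def gOp (m : M → ℝ) : Op M ι ℝ (P2 (Fm ι ℝ) ℝ) :=
  ⟨triv M ℝ, ps (q1 F) (triv M ℝ), fun a x => i1 _ _ ∘L ea ℝ (fun a b => F.P a b x) a,
    fun x => m x • i2 _ _⟩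

variable {m : M → ℝ}

theorem good_g (hF : F.Tame C) (hm : F.Cb m) : ∃ C', (gOp F m).Good F C' := by
  have h1 : ∀ a, F.Cb fun x => ea ℝ (fun a b => F.P a b x) a := fun a =>
    Cls.tp (K := Map77.cb (fun _ : Unit => F.toPre) univ)
      (fun b _ _ => Cb_smul ⟨_, hF.P b a⟩ (Cb_const _)) () trivial
  obtain ⟨C', -, h⟩ := good_of (A := gOp F m) hF (Cb_const _) (Cb_ps (cb_q1 hF) (Cb_const _))
    (fun a => Cb_comp (Cb_const _) (h1 a)) (Cb_smul hm (Cb_const _))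
    ⟨⟨fun _ _ => rfl, fun _ _ _ => rfl⟩, prj1.ps ⟨fun _ _ => rfl, fun _ _ _ => rfl⟩,
      fun _ _ _ => rfl, fun a x v => ext2 (fm_ext fun i => by
        simp [gOp, q1_apply, ea_apply, ← mul_assoc, ← Finset.sum_mul, PP]) (by simp [gOp]),
      fun x v => ext2 (by simp [gOp]) (by simp [gOp, triv]), fun a x =>
        ContinuousLinearMap.ext fun v => ext2 (fm_ext fun i => by
          simp [gOp, ea_apply, ← mul_assoc, ← Finset.sum_mul, PP']) (by simp [gOp])⟩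
  exact ⟨C', h⟩

theorem cliff_g : (gOp F m).CliffL F := fun a b x v w => by
  simp only [gOp, inner2, ContinuousLinearMap.comp_apply, f2_i1, s2_i1, inner_zero_left, add_zero]
  exact cliff_c (F := F) a m a b x v w

theorem app_g (ξ : M → ℝ) (x : M) :
    (gOp F m).app F ξ x = i1 _ _ (fm (fun i => F.D i ξ) x) + i2 _ _ (m x * ξ x) :=
  ext2 (fm_ext fun i => by simp [Op.app, Pre.op, gOp, ea_apply, projD, fm])
    (by simp [Op.app, Pre.op, gOp])

theorem adj_g (hA : (gOp F m).Good F C') {u : M → P2 (Fm ι ℝ) ℝ} (hu : Sm I u)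
    (hp : ∀ x, q1 F x (f2 _ _ (u x)) = f2 _ _ (u x)) (x : M) : ((gOp F m).adj F).app F u x =
      m x * s2 _ _ (u x) - dv1 F (fun i y => f2 _ _ (u y) i) x := by
  have h1 : ∀ a x v, Op.tr ((gOp F m).σ a x) v = q1 F x (f2 _ _ v) a := fun a x v =>
    ext_inner_left ℝ fun t => by
      rw [inner_tr, inner2, q1_apply, inner_sum, inner_fm]
      simp only [gOp, ContinuousLinearMap.comp_apply, s2_i1, f2_i1, inner_zero_left, add_zero]
      exact Finset.sum_congr rfl fun _ _ => by simp [ea_apply, F.P_symm a]; ring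
  have h2 : ∀ a, Sm I fun y => Op.tr ((gOp F m).σ a y) := fun a =>
    (trL ℝ _).contMDiff.comp (hA.σ a).1
  have h3 : ∀ a, F.D a (fun y => f2 _ _ (u y) a) x = F.D a (fun y => Op.tr ((gOp F m).σ a y)) x (u x) +
      Op.tr ((gOp F m).σ a x) (F.D a u x) := fun a => by
    refine Eq.trans ?_ (dv_app (md (h2 a) x) (md hu x))
    simp only [h1, hp, D_def]
  have h4 : Op.tr ((gOp F m).B x) (u x) = m x * s2 _ _ (u x) := ext_inner_left ℝ fun t => by
    rw [inner_tr, inner2]; simp [gOp]; ring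
  have h5 : ∀ v, (gOp F m).p x v = v := fun _ => rfl
  simp only [Op.app, Pre.op, Op.adj, dv1, h3, neg_apply, ContinuousLinearMap.comp_apply, h5,
    sub_apply, h4, _root_.sum_apply, add_apply, smul_apply, h1 _ x (u x), hp,
    Finset.sum_add_distrib, Finset.sum_neg_distrib, smul_eq_mul]
  ring

theorem low_g (h0 : 0 < Module.finrank ℝ E) (hF : F.Tame C) (z : M) : ∃ η : M → ℝ, Sm I η ∧
    HasCompactSupport η ∧ (η =ᶠ[𝓝 z] fun _ => 1) ∧ ∀ ξ : M → ℝ, Sm I ξ → HasCompactSupport ξ →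
      F.nrm 0 ξ ≤ 2 * F.nrm 0 ((gOp F fun x => 1 - η x).app F ξ) := by
  set c := |C 0| + 1
  have c0 : 0 < c := by positivity
  obtain ⟨U, hU, h1⟩ := small_nhd h0 F.toPre z (ε := (4 * c)⁻¹ ^ 2) (by positivity)
  obtain ⟨η, e1, e2, e3, e4, e5⟩ := exists_bump (I := I) hU
  refine ⟨η, e1, e2, e4, fun ξ s1 c1 => ?_⟩
  have i : ∀ {f : M → ℝ}, Sm I f → HasCompactSupport f → ∀ n, Integrable (fun x => f x ^ (n + 1)) F.μ :=
    fun h h' n => (h.continuous.fun_pow _).integrable_of_hasCompactSupport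
      (h'.mono fun x hx k => hx (by simp [k]))
  have k1 : ∫ x, η x ^ 4 ∂F.μ ≤ (4 * c)⁻¹ ^ 2 := by
    rw [← setIntegral_eq_integral_of_forall_compl_eq_zero (s := tsupport η) fun x hx => by
      simp [image_eq_zero_of_notMem_tsupport hx]]
    refine (setIntegral_mono_on (i e1 e2 3).integrableOn (integrableOn_const e2.measure_lt_top.ne)
      (isClosed_tsupport η).measurableSet fun x _ => pow_le_one₀ (e5 x).1 (e5 x).2).trans ?_
    simpa [Measure.real] using ENNReal.toReal_le_of_le_ofReal (by positivity) ((measure_mono e3).trans h1.le)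
  set A := ∫ x, ξ x ^ 2 ∂F.μ
  set B := ∑ a, ∫ x, F.D a ξ x ^ 2 ∂F.μ
  have A0 : 0 ≤ A := integral_nonneg fun _ => sq_nonneg _
  have B0 : 0 ≤ B := Finset.sum_nonneg fun _ _ => integral_nonneg fun _ => sq_nonneg _
  have k2 : ∫ x, ξ x ^ 4 ∂F.μ ≤ (c * (A + B)) ^ 2 := by
    have := hF.l4 ξ s1 c1
    rw [ip_eq] at this
    simp only [N2, n2, Real.norm_eq_abs, sq_abs] at this
    exact (Real.sqrt_le_left (by positivity)).1 (this.trans (mul_le_mul_of_nonneg_right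
      ((le_abs_self _).trans (le_add_of_nonneg_right zero_le_one)) (add_nonneg A0 B0)))
  have s2 : Sm I fun x => (1 - η x) * ξ x := (contMDiff_const.sub e1).mul s1
  have i2 := i s2 c1.mul_left 1
  have i3 := integrable_finsetSum Finset.univ fun a _ => i (F.sm_D s1 a) (F.hcs_D c1 a) 1
  have k3 : N2 F.toPre 0 ((gOp F fun x => 1 - η x).app F ξ) = B + ∫ x, ((1 - η x) * ξ x) ^ 2 ∂F.μ := by
    refine (integral_congr_ae (.of_forall fun x => ?_)).trans ((integral_add i3 i2).trans (congrArg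
      (· + _) (integral_finsetSum _ fun a _ => i (F.sm_D s1 a) (F.hcs_D c1 a) 1)))
    rw [← real_inner_self_eq_norm_sq, inner2, inner_fm]
    simp [app_g, fm, sq, -inner_self_eq_norm_sq_to_K]
  have k5 : 0 ≤ ∫ x, ((1 - η x) * ξ x) ^ 2 ∂F.μ := integral_nonneg fun _ => sq_nonneg _
  refine (abs_le_of_sq_le_sq' ?_ (mul_nonneg zero_le_two (nrm_nonneg _ _))).2
  rw [mul_pow, nrm_sq, nrm_sq, k3]
  simp only [N2, n2, Real.norm_eq_abs, sq_abs]
  change A ≤ _
  rcases (add_nonneg A0 B0).eq_or_lt with n0 | n0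
  · linarith
  set t := 4 * c ^ 2 * (A + B)
  have t0 : 0 < t := by positivity
  have k4 := integral_mono (i s1 c1 1) ((i2.const_mul 2).add (((i s1 c1 3).const_mul t⁻¹).add
    ((i e1 e2 3).const_mul t))) fun x => by
      have : 2 * (η x * ξ x) ^ 2 ≤ t⁻¹ * ξ x ^ 4 + t * η x ^ 4 := by
        rw [← sub_nonneg, show t⁻¹ * ξ x ^ 4 + t * η x ^ 4 - 2 * (η x * ξ x) ^ 2 =
          (ξ x ^ 2 - t * η x ^ 2) ^ 2 / t by field_simp; ring]
        positivity
      simp only [Pi.add_apply]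
      nlinarith [sq_nonneg ((1 - η x) * ξ x - η x * ξ x)]
  rw [integral_add' (i2.const_mul 2) (((i s1 c1 3).const_mul _).add ((i e1 e2 3).const_mul t)),
    integral_add' ((i s1 c1 3).const_mul _) ((i e1 e2 3).const_mul t), integral_const_mul,
    integral_const_mul, integral_const_mul] at k4
  have k6 := mul_le_mul_of_nonneg_left k2 (inv_pos.2 t0).le
  have k7 := mul_le_mul_of_nonneg_left k1 t0.le
  rw [show t⁻¹ * (c * (A + B)) ^ 2 = (A + B) / 4 by simp only [t]; field_simp] at k6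
  rw [show t * (4 * c)⁻¹ ^ 2 = (A + B) / 4 by simp only [t]; field_simp] at k7
  change A ≤ 2 * ∫ x, ((1 - η x) * ξ x) ^ 2 ∂F.μ + (t⁻¹ * ∫ x, ξ x ^ 4 ∂F.μ + t * ∫ x, η x ^ 4 ∂F.μ) at k4
  linarith

theorem HB.of_fl {F : Pre I M ι} {u : α → M → V} (h : ∀ i, Sm I (u i) ∧ FL F 0 (u i))
    (k : ∃ K, ∀ᶠ i in l, F.nrm 0 (u i) ≤ K) (z : M) : HB l z F 2 1 u := by
  obtain ⟨K, k⟩ := k
  obtain ⟨S, -⟩ := exists_wz (I := I) (univ_mem (f := 𝓝 z))
  exact .of_int (S.nhd 0) (S.cpt 0) two_ne_zero (.of_forall fun i => (h i).1) ⟨K ^ 2, k.mono fun i k =>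
    (NS_le (h i).2 _).trans ((nrm_sq 0 _).ge.trans (pow_le_pow_left₀ (nrm_nonneg _ _) k 2))⟩

theorem HB.pi {F : Pre I M ι} {β : Type} [Fintype β] {z : M} {p j : ℕ} {f : α → M → Fm β V}
    (h : ∀ a, HB l z F p j fun i x => f i x a) : HB l z F p j f :=
  (HB.sum fun a => (h a).clm (Map77.ij V a)).eq (.of_forall fun _ _ => fm_sum _)

/-- **Coulomb gauge** near `z` -/
theorem coulomb (h0 : 0 < Module.finrank ℝ E) (hF : F.Tame C) {z : M} {a : α → ι → M → ℝ}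
    (hs : ∀ i k, Sm I (a i k)) (hp : ∀ i k x, ∑ j, F.P k j x * a i j x = a i k x)
    (h : ∀ k, HB l z F.toPre 2 1 fun i => a i k) : ∃ V ∈ 𝓝 z, ∃ ξ : α → M → ℝ, (∀ i, Sm I (ξ i)) ∧
      (∀ i, ∀ x ∈ V, dv1 F (fun k y => a i k y - F.D k (ξ i) y) x = 0) ∧
      ∀ x, HB l x F.toPre 2 2 ξ := by
  obtain ⟨η, e1, e2, e3, e4⟩ := low_g h0 hF z
  obtain ⟨C', hA⟩ := good_g (m := fun x => 1 - η x) hF (Cb_sub (Cb_const 1) (Cb_of_hcs e1 e2))
  have h1 : HB l z F.toPre 2 1 fun i x => i1 _ ℝ (fm (a i) x) :=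
    (HB.pi (f := fun i => fm (a i)) h).clm _
  obtain ⟨U, hU, h2⟩ := eventually_smallSets.1 (h1.cutL (W := P2 (Fm ι ℝ) ℝ))
  obtain ⟨χ, c1, c2, c3, c4, -⟩ := exists_bump (I := I) hU
  obtain ⟨K, hK⟩ := h2 U Subset.rfl _ (sm_sc c1) (hcs_sc _ c2) ((ts_sc _ _).trans c3)
  have s1 : ∀ i, Sm I fun x => χ x • i1 _ ℝ (fm (a i) x) := fun i =>
    c1.smul ((i1 _ ℝ).contMDiff.comp (sm_fm (hs i)))
  have f1 : ∀ i, Fl F.toPre fun x => χ x • i1 _ ℝ (fm (a i) x) := fun i =>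
    ⟨s1 i, fun j => FL_of_hcs j (s1 i) c2.smul_right⟩
  have q : ∀ i x, q1 F x (fm (a i) x) = fm (a i) x := fun i x => q1_fm (hp i · x)
  choose ξ k1 k2 k3 k4 using fun i => proj' hF hA cliff_g (c := 2) (fun ξ => e4 _ ξ.2.1 ξ.2.2.1) (f1 i)
    fun x => ext2 (by simp [gOp, q]) (by simp [gOp])
  have f2' := fun i => fl_op hF hA (k1 i) fun _ => rfl
  refine ⟨_, eventually_eventually_nhds.2 (e3.and c4), ξ, fun i => (k1 i).sm, fun i x hx => ?_,
    fun x => .succ (.of_fl (fun i => ⟨(k1 i).sm, (k1 i).fl 0⟩) ⟨2 * K, hK.mono fun i k =>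
      (k4 i).trans (by rw [abs_two]; exact mul_le_mul_of_nonneg_left k zero_le_two)⟩ x) fun k =>
      ((HB.of_fl (fun i => ⟨(f2' i).sm, (f2' i).fl 0⟩) ⟨K, hK.mono fun i k => (k3 i).trans k⟩ x).clm
        (Map77.pj ℝ k ∘L f2 _ _)).eq (.of_forall fun i x => by simp [app_g, fm])⟩
  have := (adj_g hA ((s1 i).sub (f2' i).sm) (fun x => by
    simp [app_g, q, q1_fm (F := F) fun k => projD (ξ i) k]) x).symm.trans (congrFun (k2 i) x)
  rw [hx.self_of_nhds.1, sub_self, zero_mul, zero_sub, Pi.zero_apply, neg_eq_zero] at this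
  refine Eq.trans (Finset.sum_congr rfl fun k _ => ?_) this
  have e : (fun y => a i k y - F.D k (ξ i) y) =ᶠ[𝓝 x] fun y => f2 _ _ (χ y • i1 _ ℝ (fm (a i) y) -
      (gOp F fun x => 1 - η x).app F (ξ i) y) k := hx.mono fun y hy => by simp [app_g, fm, hy.2]
  exact congrArg₂ (· + ·) (dv_congr e) (congrArg _ e.self_of_nhds)

end Crest.Agent.X212.Loc74
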