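import Crest.Agent.X212.Loc74.Hb

/-!
# Row 212, SW-LOC (helper74): the interior estimate with a small first order perturbation
-/

set_option autoImplicit false
set_option linter.unusedSectionVars false
noncomputable section
open scoped Manifold ContDiff Topology InnerProductSpace
open MeasureTheory Set Function Filter

namespace Crest.Agent.X212.Loc74
open An An.Pre Sob92 Ell97 Lw78 Lw78.Wn
open Cmp73 (MB Cv)
open Neck67 (Lb cL nrm_app_on one_le_cL)

variable {E : Type} [NormedAddCommGroup E] [NormedSpace ℝ E] [FiniteDimensional ℝ E]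
  [MeasurableSpace E] [BorelSpace E]
  {HM : Type} [TopologicalSpace HM] {I : ModelWithCorners ℝ E HM} [I.Boundaryless]
  {M : Type} [TopologicalSpace M] [ChartedSpace HM M] [IsManifold I ∞ M]
  [MeasurableSpace M] [T2Space M] [BorelSpace M] [SecondCountableTopology M]
  {ι : Type} [Fintype ι] {N : Type} [NormedAddCommGroup N] [NormedSpace ℝ N]
  {V W : Type} [NormedAddCommGroup V] [InnerProductSpace ℝ V] [FiniteDimensional ℝ V]
  [NormedAddCommGroup W] [InnerProductSpace ℝ W] [FiniteDimensional ℝ W] {α : Type}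
  {l : Filter α} {z : M} {j p : ℕ}

section
variable {F : Pre I M ι}

theorem ts_app {N' : Type} [NormedAddCommGroup N'] [NormedSpace ℝ N'] (L : M → N →L[ℝ] N')
    (f : M → N) : tsupport (fun x => L x (f x)) ⊆ tsupport L ∩ tsupport f :=
  subset_inter (closure_mono fun x hx e => hx (by simp [e])) (closure_mono fun x hx e => hx (by simp [e]))

theorem ts_sc (X : Type) [NormedAddCommGroup X] [InnerProductSpace ℝ X] (g : M → ℝ) :
    tsupport (sc X g) ⊆ tsupport g := closure_mono fun x hx e => hx (by simp [sc, e])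

theorem hcs_sc (X : Type) [NormedAddCommGroup X] [InnerProductSpace ℝ X] {g : M → ℝ}
    (h : HasCompactSupport g) : HasCompactSupport (sc X g) :=
  h.of_isClosed_subset isClosed_closure (ts_sc X g)

theorem HB.cutL {f : α → M → N} (h : HB l z F 2 (j + 1) f) : ∀ᶠ U in (𝓝 z).smallSets,
    ∀ L : M → N →L[ℝ] W, Sm I L → HasCompactSupport L → tsupport L ⊆ U →
      ∃ K, ∀ᶠ i in l, F.nrm j (fun x => L x (f i x)) ≤ K := by
  obtain ⟨A, h1, S, k⟩ := Ev.ex h
  filter_upwards [eventually_smallSets_subset.2 (S.nhd 1)] with U hU L h2 h3 h4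
  obtain ⟨K, hK⟩ := jt_nrm ((Jt.cb (Cb_of_hcs h2 h3)).app k) fun d =>
    ((ts_app _ _).trans inter_subset_left).trans (h4.trans hU)
  exact ⟨K, mem_of_superset h1 fun i hi => hK ⟨i, hi⟩⟩

theorem HB.cutI {f : α → M → N} (h : HB l z F p 1 f) : ∀ᶠ U in (𝓝 z).smallSets,
    ∃ B, ∀ᶠ i in l, ∀ K ⊆ U, ∫ x in K, ‖f i x‖ ^ p ∂F.μ ≤ B := by
  obtain ⟨A, h1, S, k⟩ := Ev.ex h
  obtain ⟨B, hB⟩ := k.lp.2 1 one_pos
  filter_upwards [eventually_smallSets_subset.2 (S.nhd 1)] with U hU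
  exact ⟨B, mem_of_superset h1 fun i hi K hK => (setIntegral_mono_set (Wn.int (w := S.w F A)
    (d := ⟨i, hi⟩) ((k.ct ⟨i, hi⟩).norm.pow p)) (.of_forall fun _ => pow_nonneg (norm_nonneg _) _)
    (hK.trans hU).eventuallyLE).trans (hB ⟨i, hi⟩)⟩

theorem cv_lb [l.NeBot] [FiniteDimensional ℝ N] {e : α → M → N} (h : Cv I l univ e fun _ => 0)
    {K : Set M} (hK : IsCompact K) {ε : ℝ} (hε : 0 < ε) : ∀ {j : ℕ},
    ∀ᶠ i in l, Lb F K j (e i) ε := by
  intro j
  induction j generalizing e with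
  | zero =>
    exact ((h.mb.smooth hK (subset_univ _)).and (h.unif isOpen_univ hK (subset_univ _) hε)).mono
      fun i k x hx => ⟨k.1 x hx, by simpa using (k.2 x hx).le⟩
  | succ j ih =>
    refine (((h.mb.smooth hK (subset_univ _)).and (h.unif isOpen_univ hK (subset_univ _) hε)).and
      (eventually_all.2 fun a => ih ((h.D isOpen_univ F a).congr' isOpen_univ
        (.of_forall fun _ _ _ => rfl) fun x _ => ?_))).mono
      fun i k => ⟨fun x hx => ⟨k.1.1 x hx, by simpa using (k.1.2 x hx).le⟩, k.2⟩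
    exact (congrFun (dv_const _) x).symm

variable (l F j) in
/-- `g` is small compared with one more derivative of `ψ` -/
def Ab (ψ : α → M → V) (g : α → M → W) : Prop := (∀ᶠ i in l, Sm I (g i) ∧ HasCompactSupport (g i)) ∧
  ∀ ε > 0, ∃ K, ∀ᶠ i in l, F.nrm j (g i) ≤ ε * F.nrm (j + 1) (ψ i) + K

variable {ψ : α → M → V} {g g' : α → M → W}

theorem Ab.add (h : Ab l j F ψ g) (h' : Ab l j F ψ g') : Ab l j F ψ fun i x => g i x + g' i x :=
  ⟨(h.1.and h'.1).mono fun _ k => ⟨k.1.1.add k.2.1, k.1.2.add k.2.2⟩, fun ε hε => by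
    obtain ⟨K, k⟩ := h.2 _ (half_pos hε)
    obtain ⟨K', k'⟩ := h'.2 _ (half_pos hε)
    refine ⟨K + K', ?_⟩
    filter_upwards [k, k', h.1, h'.1] with i k k' a b
    exact (nrm_add_le j a.1 a.2 b.1 b.2).trans (by linarith)⟩

theorem Ab.of (h : ∀ᶠ i in l, Sm I (g i) ∧ HasCompactSupport (g i))
    (k : ∃ K, ∀ᶠ i in l, F.nrm j (g i) ≤ K) : Ab l j F ψ g :=
  ⟨h, fun _ hε => let ⟨K, k⟩ := k; ⟨K, k.mono fun _ k => k.trans (le_add_of_nonneg_left
    (mul_nonneg hε.le (nrm_nonneg _ _)))⟩⟩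

theorem Ab.sum {κ : Type} [Fintype κ] {g : κ → α → M → W} (h : ∀ a, Ab l j F ψ (g a)) :
    Ab l j F ψ fun i x => ∑ a, g a i x := by
  classical
  suffices ∀ s : Finset κ, Ab l j F ψ fun i x => ∑ a ∈ s, g a i x from this _
  refine Finset.induction (.of (.of_forall fun _ => ⟨by simpa using contMDiff_const,
    HasCompactSupport.zero⟩) ⟨0, .of_forall fun _ => ?_⟩) fun a s ha ih => ?_
  · simpa using nrm_sum_le (F := F) (∅ : Finset κ) j (u := fun _ _ => (0 : W)) (by simp) (by simp)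
  · simpa only [Finset.sum_insert ha] using (h a).add ih

theorem Ab.small [l.NeBot] {e : α → M → V →L[ℝ] W} (h : Cv I l univ e fun _ => 0)
    (hs : ∀ᶠ i in l, Sm I (e i)) {K : Set M} (hK : IsCompact K)
    (hψ : ∀ᶠ i in l, Sm I (ψ i) ∧ tsupport (ψ i) ⊆ K) (a : ι) :
    Ab l j F ψ fun i x => e i x (F.D a (ψ i) x) := by
  have c : ∀ {u : M → V}, tsupport u ⊆ K → HasCompactSupport (F.D a u) := fun k =>
    F.hcs_D (hK.of_isClosed_subset isClosed_closure k) a
  refine ⟨(hs.and hψ).mono fun i k => ⟨k.1.clm_apply (F.sm_D k.2.1 a),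
    (c k.2.2).mono fun x hx e => hx (by simp [e])⟩, fun ε hε => ⟨0, ?_⟩⟩
  have h1 := one_pos.trans_le (one_le_cL (Fintype.card ι) j)
  filter_upwards [cv_lb (F := F) (j := j) h hK (div_pos hε h1), hψ] with i k k'
  refine (nrm_app_on le_rfl k (F.sm_D k'.1 a) (c k'.2) ((F.tsupport_D _ a).trans k'.2)).trans ?_
  rw [abs_of_pos (div_pos hε h1), mul_div_cancel₀ _ h1.ne', add_zero]
  exact mul_le_mul_of_nonneg_left (nrm_D_le j _ a) hε.le

end

variable {F : Fr I M ι} {C C' : ℕ → ℝ} {A : Op M ι V W} {u ψ : α → M → V} {v : α → M → W}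

theorem Ab.rough (hF : F.Tame C) {m : α → M → V →L[ℝ] W} (hs : ∀ᶠ i in l, Sm I (m i)) {K : Set M}
    (hK : IsCompact K) (hψ : ∀ᶠ i in l, Sm I (ψ i) ∧ tsupport (ψ i) ⊆ K)
    (h1 : ∃ B, ∀ᶠ i in l, F.nrm 1 (ψ i) ≤ B) (h8 : ∃ B, ∀ᶠ i in l, ∫ x in K, ‖m i x‖ ^ 8 ∂F.μ ≤ B)
    (a : ι) : ∀ ε > 0, ∃ B, ∀ᶠ i in l,
      F.nrm 0 (fun x => m i x (F.D a (ψ i) x)) ≤ ε * F.nrm 2 (ψ i) + B := fun ε hε => by
  obtain ⟨L, hL⟩ := l4V (V := V) hF
  obtain ⟨K1, h1⟩ := h1
  obtain ⟨K8, h8⟩ := h8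
  set δ := ε ^ 2 / (|K8| + |L| + 1) with hδ
  have δ0 : 0 < δ := by positivity
  refine ⟨ε + √δ⁻¹ * |K1|, ?_⟩
  filter_upwards [hs, hψ, h1, h8] with i s1 s2 k1 k8
  have sD := F.sm_D s2.1 a
  have cD := F.hcs_D (hK.of_isClosed_subset isClosed_closure s2.2) a
  have tD := (F.tsupport_D _ a).trans s2.2
  have n1 := nrm_nonneg (F := F.toPre) 2 (ψ i)
  set n := F.nrm 2 (ψ i) ^ 2 + 1 with hn
  have n0 : 0 < n := by positivity
  have int : ∀ {φ : M → ℝ}, Continuous φ → IntegrableOn φ K F.μ := fun h =>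
    h.continuousOn.integrableOn_compact hK
  have c2 := continuous_const (y := δ * n).fun_mul (s1.continuous.norm.fun_pow 8)
  have c3 := continuous_const (y := δ / n).fun_mul (sD.continuous.norm.fun_pow 4)
  have c4 := continuous_const (y := δ⁻¹).fun_mul (sD.continuous.norm.fun_pow 2)
  have b1 : ∫ x in K, ‖F.D a (ψ i) x‖ ^ 4 ∂F.μ ≤ |L| * n ^ 2 :=
    (setIntegral_le_integral (int4 F.toPre sD cD) (.of_forall fun x => by positivity)).trans
      ((hL _ sD cD).trans (mul_le_mul (le_abs_self L) (pow_le_pow_left₀ (n2_nonneg _ _)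
        ((n2_dv_le 1 _ a).trans ((nrm_sq 2 _).ge.trans (le_add_of_nonneg_right zero_le_one))) 2)
        (sq_nonneg _) (abs_nonneg _)))
  have b2 : ∫ x in K, ‖F.D a (ψ i) x‖ ^ 2 ∂F.μ ≤ |K1| ^ 2 := (NS_of_tsupport 0 tD).trans_le
    ((nrm_sq 0 _).ge.trans (pow_le_pow_left₀ (nrm_nonneg _ _)
      ((nrm_D_le 0 _ a).trans (k1.trans (le_abs_self _))) 2))
  refine nrm_le_of_sq (by positivity) ((NS_of_tsupport (S := K) 0 (((ts_app _ _).trans
    inter_subset_right).trans tD)).ge.trans ((setIntegral_mono_on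
      (int ((s1.clm_apply sD).continuous.norm.fun_pow 2)) (int ((c2.fun_add c3).fun_add c4))
      hK.measurableSet fun x _ => (pow_le_pow_left₀ (norm_nonneg _)
        ((m i x).le_opNorm _) 2).trans (young _ _ n0 δ0)).trans ?_))
  rw [integral_add (int (c2.fun_add c3)) (int c4), integral_add (int c2) (int c3),
    integral_const_mul, integral_const_mul, integral_const_mul]
  have b3 := mul_le_mul_of_nonneg_left b1 (div_pos δ0 n0).le
  rw [show δ / n * (|L| * n ^ 2) = δ * n * |L| by field_simp] at b3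
  have b4 := mul_le_mul_of_nonneg_left (k8.trans (le_abs_self _)) (mul_pos δ0 n0).le
  have b5 := mul_le_mul_of_nonneg_left b2 (inv_pos.2 δ0).le
  have b6 : δ * (|K8| + |L| + 1) = ε ^ 2 := div_mul_cancel₀ _ (by positivity)
  have b7 : (√δ⁻¹ * |K1|) ^ 2 = δ⁻¹ * |K1| ^ 2 := by rw [mul_pow, Real.sq_sqrt (by positivity)]
  have b8 : 0 ≤ √δ⁻¹ * |K1| := by positivity
  have b9 : δ * n * |K8| + δ * n * |L| ≤ ε ^ 2 * n := by rw [← b6]; nlinarith [mul_pos δ0 n0]
  nlinarith [mul_nonneg hε.le b8, mul_nonneg (mul_nonneg hε.le n1) b8,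
    mul_nonneg (mul_nonneg hε.le n1) hε.le]

/-- the interior estimate -/
theorem HB.ell' [l.NeBot] (hF : F.Tame C) (hA : A.Good F C') (hc : A.CliffL F)
    (hp : ∀ᶠ i in l, ∀ x, A.p x (u i x) = u i x) (h : HB l z F.toPre 2 (j + 1) u)
    {e : ι → α → M → V →L[ℝ] W} (he : ∀ a, Cv I l univ (e a) fun _ => 0)
    (hs : ∀ a, ∀ᶠ i in l, Sm I (e a i)) (hv : ∀ᶠ U in (𝓝 z).smallSets, ∀ χ : M → ℝ, Sm I χ →
      HasCompactSupport χ → tsupport χ ⊆ U →
      Ab l j F.toPre (fun i x => χ x • u i x) fun i x => χ x • v i x)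
    (eq : ∀ᶠ q : α × M in l ×ˢ 𝓝 z, A.app F (u q.1) q.2 =
      ∑ a, e a q.1 q.2 (F.D a (u q.1) q.2) + v q.1 q.2) : HB l z F.toPre 2 (j + 2) u := by
  obtain ⟨C'', hD⟩ := du_of hF hA
  obtain ⟨K, K0, hK⟩ := est_fam (J := Unit) fun _ => hD.1 hc
  obtain ⟨pa, e1, pb, e2, eq⟩ := eventually_prod_iff.1 eq
  have k : ∀ a, HB l z F.toPre 2 (j + 1) fun i x => e a i x (u i x) := fun a =>
    (HB.of_mbOn (hs a) fun k => (he a).mb k z trivial).app h
  obtain ⟨U, hU, H⟩ := (eventually_smallSets.1 ((((hv.and (h.cutL (W := W))).and (h.cutL (W := V))).and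
    (eventually_all.2 fun a => (k a).cutL (W := W))).and (eventually_smallSets_subset.2 e2)))
  obtain ⟨⟨⟨⟨h1, h2⟩, h3⟩, h4⟩, h5⟩ := H U Subset.rfl
  obtain ⟨χ, c1, c2, c3, c4, -⟩ := exists_bump (I := I) hU
  have ty : tsupport (sy F A χ) ⊆ tsupport χ :=
    closure_minimal (fun x hx => by_contra fun k => hx (sy_eq_zero k)) isClosed_closure
  have sy1 := (cb_sy hA (Cb_of_hcs c1 c2)).choose_spec.1
  have cy : HasCompactSupport (sy F A χ) := c2.of_isClosed_subset isClosed_closure ty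
  have sψ : ∀ᶠ i in l, Sm I (fun x => χ x • u i x) ∧ tsupport (fun x => χ x • u i x) ⊆ tsupport χ :=
    h.sm.mono fun i k => ⟨c1.smul k, tsupport_smul_subset_left _ _⟩
  have a1 := ((Ab.sum (j := j) fun a => (Ab.small (F := F.toPre) (he a) (hs a) c2 sψ a).add (.of
    (g := fun i x => sc W (fun x => -F.D a χ x) x (e a i x (u i x)))
    ((k a).sm.mono fun i k => ⟨(F.sm_D c1 a).neg.smul k, (F.hcs_D c2 a).neg.smul_right⟩)
    (h4 a _ (sm_sc (F.sm_D c1 a).neg) (hcs_sc _ (F.hcs_D c2 a).neg)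
      ((ts_sc _ _).trans ((tsupport_neg _).subset.trans ((F.tsupport_D χ a).trans c3)))))).add
    (h1 χ c1 c2 c3)).add (.of (h.sm.mono fun i k => ⟨sy1.clm_apply k,
      cy.mono fun x hx e => hx (by simp [e])⟩) (h2 _ sy1 cy (ty.trans c3)))
  obtain ⟨B, hB⟩ := a1.2 (2 * (K j + 1))⁻¹ (by have := K0 j; positivity)
  obtain ⟨B', hB'⟩ := h3 _ (sm_sc c1) (hcs_sc _ c2) ((ts_sc _ _).trans c3)
  refine .of_cut c1 c2 c4 h.sm ⟨2 * (K j * (B + B')), ?_⟩
  filter_upwards [hB, hB', hp, h.sm, e1] with i k1 k2 k3 k4 k5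
  have k6 := (hK () j ⟨fun x => χ x • u i x, c1.smul k4, c2.smul_right, fun x => by
    rw [map_smul, k3]⟩).1
  rw [show A.app F (fun x => χ x • u i x) = fun x => (∑ a, (e a i x (F.D a (fun x => χ x • u i x) x) +
      sc W (fun x => -F.D a χ x) x (e a i x (u i x))) + χ x • v i x) + sy F A χ x (u i x) from
    funext fun x => by
      rw [app_smul c1 k4]
      simp only [D_def, dv_smul (md c1 x) (md k4 x), map_add, map_smul, sc_apply, neg_smul,
        add_neg_cancel_comm, ← Finset.smul_sum, ← smul_add]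
      by_cases hx : x ∈ tsupport χ
      · rw [eq k5 (h5 (c3 hx))]; rfl
      · simp [image_eq_zero_of_notMem_tsupport hx]] at k6
  have k7 := k6.trans (mul_le_mul_of_nonneg_left (add_le_add k1 ((nrm_mono (Nat.zero_le j) _).trans k2))
    (K0 j))
  have k8 : K j * (2 * (K j + 1))⁻¹ ≤ 1 / 2 := by
    have := K0 j
    rw [← div_eq_mul_inv, div_le_iff₀ (by positivity)]; linarith
  nlinarith [mul_le_mul_of_nonneg_right k8 (nrm_nonneg (F := F.toPre) (j + 1) fun x => χ x • u i x)]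

theorem HB.ab {F : Pre I M ι} (h : HB l z F 2 (j + 1) v) : ∀ᶠ U in (𝓝 z).smallSets, ∀ χ : M → ℝ,
    Sm I χ → HasCompactSupport χ → tsupport χ ⊆ U →
      Ab l j F (fun i x => χ x • u i x) fun i x => χ x • v i x :=
  (h.cutL (W := W)).mono fun _ k _ c1 c2 c3 =>
    .of (h.sm.mono fun _ k => ⟨c1.smul k, c2.smul_right⟩)
      (k _ (sm_sc c1) (hcs_sc _ c2) ((ts_sc _ _).trans c3))

/-- the term with a coefficient in `H¹ ∩ L⁸` -/
theorem HB.ab2 (hF : F.Tame C) {m : α → M → V →L[ℝ] W} (hm : HB l z F.toPre 2 2 m)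
    (h8 : HB l z F.toPre 8 1 m) (h : HB l z F.toPre 2 2 u) (h0 : HB l z F.toPre 0 1 u)
    (hv : HB l z F.toPre 2 2 v) : ∀ᶠ U in (𝓝 z).smallSets, ∀ χ : M → ℝ,
    Sm I χ → HasCompactSupport χ → tsupport χ ⊆ U →
      Ab l 1 F.toPre (fun i x => χ x • u i x) fun i x => χ x • (m i x (u i x) + v i x) := by
  have k0 := HB.bil (ContinuousLinearMap.id ℝ _) (holR 2) hm.pred h0
  have k1 := fun a => HB.bil (ContinuousLinearMap.id ℝ _) (holR 2) (hm.D a) h0
  filter_upwards [hv.ab (u := u), k0.cutL (W := W), eventually_all.2 fun a => (k1 a).cutL (W := W),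
    h8.cutI, h.cutL (W := V)] with U h1 h2 h3 h4 h5 χ c1 c2 c3
  have sψ : ∀ᶠ i in l, Sm I (fun x => χ x • u i x) ∧ tsupport (fun x => χ x • u i x) ⊆ tsupport χ :=
    h.sm.mono fun i k => ⟨c1.smul k, tsupport_smul_subset_left _ _⟩
  simp only [smul_add]
  refine Ab.add ⟨k0.sm.mono fun i k => ⟨c1.smul k, c2.smul_right⟩, fun ε hε => ?_⟩ (h1 χ c1 c2 c3)
  obtain ⟨B0, b0⟩ := h2 _ (sm_sc c1) (hcs_sc _ c2) ((ts_sc _ _).trans c3)
  choose B1 b1 using fun a => h3 a _ (sm_sc c1) (hcs_sc _ c2) ((ts_sc _ _).trans c3)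
  choose B2 b2 using fun a => Ab.rough hF hm.sm c2 sψ (h5 _ (sm_sc c1)
    (hcs_sc _ c2) ((ts_sc _ _).trans c3))
    (h4.imp fun _ k => k.mono fun _ k => k _ c3) a (ε / (Fintype.card ι + 1)) (by positivity)
  refine ⟨B0 + ∑ a, (B1 a + B2 a), ?_⟩
  filter_upwards [b0, eventually_all.2 b1, eventually_all.2 b2, hm.sm, sψ, h.sm] with i b0 b1 b2 s1 s2 s3
  have n := nrm_nonneg (F := F.toPre) 2 fun x => χ x • u i x
  have k : ∀ a, F.nrm 0 (F.D a fun x => χ x • m i x (u i x)) ≤ B1 a + B2 a +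
      ε / (Fintype.card ι + 1) * F.nrm 2 fun x => χ x • u i x := fun a => by
    rw [show (F.D a fun x => χ x • m i x (u i x)) = (fun x => χ x • F.D a (m i) x (u i x)) +
        fun x => m i x (F.D a (fun x => χ x • u i x) x) from funext fun x => by
      simp only [← map_smul]; exact dv_app (md s1 x) (md s2.1 x)]
    refine (nrm_add_le 0 (c1.smul ((F.sm_D s1 a).clm_apply s3)) c2.smul_right
      (s1.clm_apply (F.sm_D s2.1 a)) (c2.of_isClosed_subset isClosed_closure (((ts_app _ _).trans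
        inter_subset_right).trans ((F.tsupport_D _ a).trans s2.2)))).trans
      ((add_le_add (b1 a) (b2 a)).trans_eq (by ring))
  refine (Prm93.nrm_succ_le 0 _).trans ((add_le_add b0 (Finset.sum_le_sum fun a _ => k a)).trans ?_)
  rw [Finset.sum_add_distrib, Finset.sum_const, Finset.card_univ, nsmul_eq_mul, ← mul_assoc]
  have : Fintype.card ι * (ε / (Fintype.card ι + 1)) ≤ ε := by
    rw [← mul_div_assoc, div_le_iff₀ (by positivity)]; linarith
  nlinarith [mul_le_mul_of_nonneg_right this n]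

theorem HB.ell [l.NeBot] (hF : F.Tame C) (hA : A.Good F C') (hc : A.CliffL F)
    (hp : ∀ᶠ i in l, ∀ x, A.p x (u i x) = u i x) (h : HB l z F.toPre 2 (j + 1) u)
    {e : ι → α → M → V →L[ℝ] W} (he : ∀ a, Cv I l univ (e a) fun _ => 0)
    (hs : ∀ a, ∀ᶠ i in l, Sm I (e a i)) (hv : HB l z F.toPre 2 (j + 1) v)
    (eq : ∀ᶠ q : α × M in l ×ˢ 𝓝 z, A.app F (u q.1) q.2 =
      ∑ a, e a q.1 q.2 (F.D a (u q.1) q.2) + v q.1 q.2) : HB l z F.toPre 2 (j + 2) u :=
  h.ell' hF hA hc hp he hs hv.ab eq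

end Crest.Agent.X212.Loc74
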