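import Crest.Agent.X212.Loc74.Main
import Crest.Agent.X212.St29.Lim

/-!
# Row 212, SW-LOC (helper74): the unconditional statement
-/

set_option autoImplicit false

namespace Crest.Agent.X212.Loc74
open Sw

variable {κ lam ν : Type} [Fintype κ] [Fintype lam] [Fintype ν] [DecidableEq ν]

/-- **SW-LOC** -/
theorem locStmt (d : Dt κ lam ν) {N : Type} [Fintype N] (ty : N → d.𝓔) (X : M.Mf 4) (nc : ℕ)
    (T : Type) [NormedAddCommGroup T] [NormedSpace ℝ T] [FiniteDimensional ℝ T] :
    LocStmt d ty X nc T := locS (St29.Lim.limStmt X nc d ty T)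

end Crest.Agent.X212.Loc74
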