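import Crest.Agent.X212.Lw78.Hb
import Crest.Agent.X212.Cmp73.Cv
import Crest.Agent.X212.Neck67.Lb

/-!
# Row 212, SW-LOC (helper74): Sobolev bounds near a point along a filter

`HB F l z p j f` : the derivatives of order `< j` of `f i` are bounded in `L^p` (`p = 0` : sup norm)
near `z`, eventually along `l`.
-/

set_option autoImplicit false
set_option linter.unusedSectionVars false
noncomputable section
open scoped Manifold ContDiff Topology InnerProductSpace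
open MeasureTheory Set Function Filter

namespace Crest.Agent.X212.Loc74
open An An.Pre Sob92 Ell97 Lw78 Lw78.Wn
open Cmp73 (MB)

variable {E : Type} [NormedAddCommGroup E] [NormedSpace ℝ E] [FiniteDimensional ℝ E]
  [MeasurableSpace E] [BorelSpace E]
  {HM : Type} [TopologicalSpace HM] {I : ModelWithCorners ℝ E HM} [I.Boundaryless]
  {M : Type} [TopologicalSpace M] [ChartedSpace HM M] [IsManifold I ∞ M]
  [MeasurableSpace M] [T2Space M] [BorelSpace M] [SecondCountableTopology M]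
  {ι : Type} [Fintype ι]
  {N N' N'' : Type} [NormedAddCommGroup N] [NormedSpace ℝ N] [NormedAddCommGroup N']
  [NormedSpace ℝ N'] [NormedAddCommGroup N''] [NormedSpace ℝ N'']
  {V W : Type} [NormedAddCommGroup V] [InnerProductSpace ℝ V] [FiniteDimensional ℝ V]
  [NormedAddCommGroup W] [InnerProductSpace ℝ W] [FiniteDimensional ℝ W] {α : Type}

variable (I) in
/-- windows round a point -/
structure Wz (z : M) where
  S : ℝ → Set M
  cpt : ∀ r, IsCompact (S r)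
  cut : ∀ r r', r < r' → ∃ χ : M → ℝ, Sm I χ ∧ tsupport χ ⊆ S r ∧ ∀ x ∈ S r', χ =ᶠ[𝓝 x] fun _ => 1
  nhd : ∀ r, S r ∈ 𝓝 z

variable {z : M}

/-- constant windows -/
def Wz.w (S : Wz I z) (F : Pre I M ι) (X : Type) : Wn F X where
  S _ := S.S
  cpt _ := S.cpt
  cut r r' h := let ⟨χ, h1, h2, h3⟩ := S.cut r r' h
    let ⟨C, hC⟩ := Cb_of_hcs (F := F) h1 ((S.cpt r).of_isClosed_subset isClosed_closure h2)
    ⟨C, fun _ => ⟨χ, hC, h2, h3⟩⟩
  vol _ _ := ⟨_, fun _ => le_rfl⟩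

theorem exists_bump {U : Set M} (hU : U ∈ 𝓝 z) : ∃ χ : M → ℝ, Sm I χ ∧ HasCompactSupport χ ∧
    tsupport χ ⊆ U ∧ (χ =ᶠ[𝓝 z] fun _ => 1) ∧ ∀ x, 0 ≤ χ x ∧ χ x ≤ 1 :=
  let ⟨φ, _, h⟩ := (SmoothBumpFunction.nhds_basis_tsupport (I := I) z).mem_iff.1 hU
  ⟨φ, φ.contMDiff, φ.hasCompactSupport, h, φ.eventuallyEq_one, fun _ => ⟨φ.nonneg, φ.le_one⟩⟩

theorem exists_wz {U : Set M} (hU : U ∈ 𝓝 z) : ∃ S : Wz I z, ∀ r, S.S r ⊆ U := by
  obtain ⟨φ, h1, h2, h3, h4, -⟩ := exists_bump (I := I) hU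
  have hs : ∀ {a : ℝ}, 0 < a → {x | a ≤ φ x} ⊆ tsupport φ := fun ha x hx =>
    subset_tsupport _ (ha.trans_le hx).ne'
  have hc : ∀ a, IsClosed {x | a ≤ φ x} := fun a => isClosed_le continuous_const h1.continuous
  refine ⟨⟨fun r => {x | Real.sigmoid r ≤ φ x}, fun r => h2.of_isClosed_subset (hc _)
    (hs (Real.sigmoid_pos r)), fun r r' h => ?_, fun r => h4.mono fun x hx => ?_⟩,
    fun r => (hs (Real.sigmoid_pos r)).trans h3⟩
  · obtain ⟨b, h5, h6⟩ := exists_between (Real.sigmoid_strictMono h)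
    have h7 := sub_pos.2 h5
    refine ⟨fun x => Real.smoothTransition ((φ x - Real.sigmoid r) / (b - Real.sigmoid r)),
      Real.smoothTransition.contDiff.contMDiff.comp ((h1.sub contMDiff_const).div_const _),
      closure_minimal (fun x hx => not_lt.1 fun k => hx (Real.smoothTransition.zero_of_nonpos
        (div_nonpos_of_nonpos_of_nonneg (sub_nonpos.2 k.le) h7.le))) (hc _), fun x hx => ?_⟩
    filter_upwards [h1.continuous.continuousAt.eventually (lt_mem_nhds (h6.trans_le hx))] with y hy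
    exact Real.smoothTransition.one_of_one_le ((one_le_div h7).2 (by linarith))
  · exact (Real.sigmoid_le_one r).trans_eq (Eq.symm hx)

theorem jt_res {F : Pre I M ι} {X X' : Type} {w : Wn F X} {w' : Wn F X'} (e : X' → X) {p : ℕ}
    (h : ∀ r > 0, ∃ r' > 0, ∀ d, w'.S d r ⊆ w.S (e d) r') : ∀ {j : ℕ} {f : X → M → N},
      w.Jt p j f → w'.Jt p j fun d => f (e d)
  | 0, _, k => fun d => k (e d)
  | _ + 1, _, k => ⟨fun d => k.1 (e d), ⟨fun hp r hr => let ⟨r', h1, h2⟩ := h r hr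
      let ⟨K, K0, hK⟩ := k.lp.1 hp r' h1
      ⟨K, K0, fun d x hx => hK _ x (h2 d hx)⟩, fun r hr => let ⟨r', h1, h2⟩ := h r hr
      let ⟨K, hK⟩ := k.lp.2 r' h1
      ⟨K, fun d => (setIntegral_mono_set (int ((k.ct _).norm.pow p))
        (.of_forall fun _ => pow_nonneg (norm_nonneg _) _) (h2 d).eventuallyLE).trans (hK _)⟩⟩,
      fun a => jt_res e h (k.D a)⟩

/-- true for small index sets and small windows -/
def Ev (l : Filter α) (z : M) (P : Set α → Wz I z → Prop) : Prop :=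
  ∃ A₀ ∈ l, ∃ U ∈ 𝓝 z, ∀ A ⊆ A₀, ∀ S : Wz I z, (∀ r, S.S r ⊆ U) → P A S

/-- bounds in `L^p` near `z` of the derivatives of order `< j` -/
def HB (l : Filter α) (z : M) (F : Pre I M ι) (p j : ℕ) (f : α → M → N) : Prop :=
  Ev l z fun A S => (S.w F A).Jt p j fun d => f d.1

variable {l : Filter α} {P Q : Set α → Wz I z → Prop}

theorem Ev.mono (h : Ev l z P) (k : ∀ A S, P A S → Q A S) : Ev l z Q :=
  let ⟨A, h1, U, h2, h⟩ := h
  ⟨A, h1, U, h2, fun _ a _ b => k _ _ (h _ a _ b)⟩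

theorem Ev.and (h : Ev l z P) (k : Ev l z Q) : Ev l z fun A S => P A S ∧ Q A S :=
  let ⟨_, h1, _, h2, h⟩ := h
  let ⟨_, k1, _, k2, k⟩ := k
  ⟨_, inter_mem h1 k1, _, inter_mem h2 k2, fun _ a _ b =>
    ⟨h _ (a.trans inter_subset_left) _ fun r => (b r).trans inter_subset_left,
      k _ (a.trans inter_subset_right) _ fun r => (b r).trans inter_subset_right⟩⟩

theorem Ev.all {κ : Type} [Finite κ] {P : κ → Set α → Wz I z → Prop} (h : ∀ k, Ev l z (P k)) :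
    Ev l z fun A S => ∀ k, P k A S := by
  choose A h1 U h2 h using h
  exact ⟨_, iInter_mem.2 h1, _, iInter_mem.2 h2, fun _ a _ b k =>
    h k _ (a.trans (iInter_subset _ k)) _ fun r => (b r).trans (iInter_subset _ k)⟩

theorem Ev.ex (h : Ev l z P) : ∃ A ∈ l, ∃ S, P A S :=
  let ⟨A, h1, _, h2, h⟩ := h
  let ⟨S, hS⟩ := exists_wz (I := I) h2
  ⟨A, h1, S, h A Subset.rfl S hS⟩

theorem Ev.idx {p : α → Prop} (h : ∀ᶠ i in l, p i) : Ev l z fun A (_ : Wz I z) => ∀ d : A, p d.1 :=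
  ⟨_, h, _, univ_mem, fun _ a _ _ d => a d.2⟩

theorem Ev.sub {U : Set M} (h : U ∈ 𝓝 z) : Ev l z fun _ (S : Wz I z) => ∀ r, S.S r ⊆ U :=
  ⟨_, univ_mem, _, h, fun _ _ _ b => b⟩

theorem Ev.on (F : Pre I M ι) {p : α → M → Prop} (h : ∀ᶠ q : α × M in l ×ˢ 𝓝 z, p q.1 q.2) :
    Ev l z fun A (S : Wz I z) => (S.w F A).On fun d x => p d.1 x :=
  let ⟨_, h1, _, h2, h⟩ := eventually_prod_iff.1 h
  ⟨_, h1, _, h2, fun _ a _ b r _ d _ hx => h (a d.2) (b r hx)⟩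

namespace HB
variable {F : Pre I M ι} {p q s i j : ℕ} {f f' : α → M → N} {g : α → M → N'} {φ : α → M → ℝ}

theorem of {A : Set α} (hA : A ∈ l) (S : Wz I z) (h : (S.w F A).Jt p j fun d => f d.1) :
    HB l z F p j f :=
  ⟨A, hA, _, S.nhd 1, fun _ a _ b => jt_res (inclusion a) (fun r _ => ⟨1, one_pos, fun _ => b r⟩) h⟩

theorem sm (h : HB l z F p j f) : ∀ᶠ i in l, Sm I (f i) :=
  let ⟨_, h1, _, h⟩ := Ev.ex h
  mem_of_superset h1 fun i hi => h.sm ⟨i, hi⟩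

theorem zero (h : ∀ᶠ i in l, Sm I (f i)) : HB l z F p 0 f := Ev.idx h

theorem D (h : HB l z F p (j + 1) f) (a : ι) : HB l z F p j fun i => F.D a (f i) :=
  Ev.mono h fun _ _ h => h.D a

theorem pred (h : HB l z F p (j + 1) f) : HB l z F p j f := Ev.mono h fun _ _ h => h.pred

theorem of_le (h : HB l z F p j f) (k : i ≤ j) : HB l z F p i f := Ev.mono h fun _ _ h => h.of_le k

theorem of0 (h : HB l z F 0 j f) : HB l z F p j f := Ev.mono h fun _ _ h => h.of0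

theorem succ (h : HB l z F p 1 f) (k : ∀ a, HB l z F p j fun i => F.D a (f i)) :
    HB l z F p (j + 1) f := (Ev.and h (Ev.all k)).mono fun _ _ h => ⟨h.1.1, h.1.lp, h.2⟩

theorem congr (h : HB l z F p j f) (hs : ∀ᶠ i in l, Sm I (f' i))
    (e : ∀ᶠ q : α × M in l ×ˢ 𝓝 z, f' q.1 q.2 = f q.1 q.2) : HB l z F p j f' :=
  (Ev.and h ((Ev.idx hs).and (Ev.on F (p := fun i x => f' i x = f i x) e))).mono
    fun _ _ h => h.1.congr h.2.1 h.2.2

theorem eq (h : HB l z F p j f) (e : ∀ᶠ i in l, ∀ x, f' i x = f i x) : HB l z F p j f' :=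
  (Ev.and h (Ev.idx e)).mono fun _ _ h => h.1.eq h.2

theorem add (h : HB l z F p j f) (k : HB l z F p j f') : HB l z F p j fun i x => f i x + f' i x :=
  (Ev.and h k).mono fun _ _ h => h.1.add h.2

theorem sub (h : HB l z F p j f) (k : HB l z F p j f') : HB l z F p j fun i x => f i x - f' i x :=
  (Ev.and h k).mono fun _ _ h => h.1.sub h.2

theorem neg (h : HB l z F p j f) : HB l z F p j fun i x => -f i x := Ev.mono h fun _ _ h => h.neg

theorem bil (B : N →L[ℝ] N' →L[ℝ] N'') (H : Hol p q s) (h : HB l z F p j f) (k : HB l z F q j g) :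
    HB l z F s j fun i x => B (f i x) (g i x) := (Ev.and h k).mono fun _ _ h => h.1.bil B H h.2

theorem app {L : α → M → N →L[ℝ] N'} (h : HB l z F 0 j L) (k : HB l z F p j f) :
    HB l z F p j fun i x => L i x (f i x) := (Ev.and h k).mono fun _ _ h => h.1.app h.2

theorem clm (L : N →L[ℝ] N') (h : HB l z F p j f) : HB l z F p j fun i x => L (f i x) :=
  Ev.mono h fun _ _ h => h.clm L

theorem smul (h : HB l z F 0 j φ) (k : HB l z F p j f) : HB l z F p j fun i x => φ i x • f i x :=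
  (Ev.and h k).mono fun _ _ h => h.1.smul h.2

theorem smulR (h : HB l z F p j φ) (k : HB l z F 0 j f) : HB l z F p j fun i x => φ i x • f i x :=
  (Ev.and h k).mono fun _ _ h => h.1.smulR h.2

theorem sum {κ : Type} [Fintype κ] {f : κ → α → M → N} (h : ∀ a, HB l z F p j (f a)) :
    HB l z F p j fun i x => ∑ a, f a i x := (Ev.all h).mono fun _ _ h => .sum h

theorem fsum {κ : Type} (t : Finset κ) {f : κ → α → M → N} (h : ∀ a ∈ t, HB l z F p j (f a)) :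
    HB l z F p j fun i x => ∑ a ∈ t, f a i x :=
  (sum fun a : t => h a.1 a.2).eq (.of_forall fun i x => (t.sum_coe_sort fun a => f a i x).symm)

theorem comp {g : ℝ → ℝ} (hg : ContDiff ℝ ∞ g) (h : HB l z F 0 j φ) :
    HB l z F 0 j fun i x => g (φ i x) := Ev.mono h fun _ _ h => h.comp hg

theorem one0 (hs : ∀ᶠ i in l, Sm I (f i)) (h : ∃ C, ∀ᶠ q : α × M in l ×ˢ 𝓝 z, ‖f q.1 q.2‖ ≤ C) :
    HB l z F 0 1 f :=
  let ⟨C, h⟩ := h
  ((Ev.idx hs).and (Ev.on F (p := fun i x => ‖f i x‖ ≤ C) h)).mono fun _ _ h =>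
    .one h.1 (lp0 fun r hr => ⟨C, h.2 r hr⟩)

theorem bdd (h : HB l z F 0 (j + 1) f) : ∃ C, ∀ᶠ q : α × M in l ×ˢ 𝓝 z, ‖f q.1 q.2‖ ≤ C :=
  let ⟨_, h1, S, h⟩ := Ev.ex h
  let ⟨C, _, h⟩ := h.lp.1 rfl 1 one_pos
  ⟨C, mem_of_superset (prod_mem_prod h1 (S.nhd 1)) fun q hq => h ⟨q.1, hq.1⟩ _ hq.2⟩

theorem of_mb : ∀ {j : ℕ} {f : α → M → N}, (∀ᶠ i in l, Sm I (f i)) → MB I l z j f →
    HB l z F 0 (j + 1) f
  | 0, _, hs, h => one0 hs h.bdd
  | _ + 1, _, hs, h => (one0 hs h.bdd).succ fun a =>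
      of_mb (hs.mono fun _ k => F.sm_D k a) (h.dv (MB.vf (.of_forall (F.sm a))))

theorem mb : ∀ {j : ℕ} {f : α → M → N}, HB l z F 0 (j + 1) f → MB I l z j f
  | 0, _, h => .zero_of ((tendsto_fst.eventually h.sm).mono fun _ k => k _) h.bdd
  | _ + 1, _, h => .gainP F (.zero_of ((tendsto_fst.eventually h.sm).mono fun _ k => k _) h.bdd)
      fun a => mb (h.D a)

theorem of_mbOn (hs : ∀ᶠ i in l, Sm I (f i)) (h : ∀ k, MB I l z k f) : HB l z F p j f :=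
  (of_mb hs (h j)).pred.of0

theorem fixed {u : M → N} (h : Sm I u) : HB l z F p j fun _ => u :=
  of_mbOn (.of_forall fun _ => h) fun _ => .fixed' h

theorem const (c : N) : HB l z F p j fun (_ : α) (_ : M) => c := fixed contMDiff_const

theorem comp2 {g : ℝ → ℝ} (hg : ContDiff ℝ ∞ g) (h0 : HB l z F 0 1 fun i x => g (φ i x))
    (h : HB l z F 0 j φ) (h' : HB l z F 2 (j + 1) φ) : HB l z F 2 (j + 1) fun i x => g (φ i x) :=
  (Ev.and h0 (Ev.and h h')).mono fun _ _ h => Jt.comp2 hg h.1.lp h.2.1 h.2.2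

/-- from integrals -/
theorem of_int {K : Set M} (hK : K ∈ 𝓝 z) (hc : IsCompact K) (hp : p ≠ 0)
    (hs : ∀ᶠ i in l, Sm I (f i)) (h : ∃ B, ∀ᶠ i in l, ∫ x in K, ‖f i x‖ ^ p ∂F.μ ≤ B) :
    HB l z F p 1 f :=
  let ⟨B, h⟩ := h
  ((Ev.idx (hs.and h)).and (Ev.sub hK)).mono fun _ _ h => .one (fun d => (h.1 d).1)
    ⟨fun k => absurd k hp, fun r _ => ⟨B, fun d => (setIntegral_mono_set
      (((h.1 d).1.continuous.norm.pow p).continuousOn.integrableOn_compact hc)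
      (.of_forall fun _ => pow_nonneg (norm_nonneg _) _) (h.2 r).eventuallyLE).trans (h.1 d).2⟩⟩

/-- to integrals -/
theorem int {K : Set M} (hc : IsCompact K) (h : ∀ z ∈ K, HB l z F p 1 f) :
    ∃ B, ∀ᶠ i in l, ∫ x in K, ‖f i x‖ ^ p ∂F.μ ≤ B := by
  have := hc.induction_on (p := fun K => ∃ B : ℝ, ∀ᶠ i in l,
    ∫⁻ x in K, ENNReal.ofReal (‖f i x‖ ^ p) ∂F.μ ≤ ENNReal.ofReal B) ⟨0, by simp⟩
    (fun s t e ⟨B, h⟩ => ⟨B, h.mono fun i k => (lintegral_mono_set e).trans k⟩)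
    (fun s t ⟨B, h⟩ ⟨B', h'⟩ => ⟨|B| + |B'|, (h.and h').mono fun i k =>
      (lintegral_union_le _ _ _).trans ((add_le_add (k.1.trans (ENNReal.ofReal_le_ofReal
        (le_abs_self B))) (k.2.trans (ENNReal.ofReal_le_ofReal (le_abs_self B')))).trans_eq
        (ENNReal.ofReal_add (abs_nonneg _) (abs_nonneg _)).symm)⟩) fun z hz => by
      obtain ⟨A, h1, S, h⟩ := Ev.ex (h z hz)
      obtain ⟨B, hB⟩ := h.lp.2 1 one_pos
      refine ⟨_, nhdsWithin_le_nhds (S.nhd 1), B, mem_of_superset h1 fun i hi => ?_⟩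
      exact (ofReal_integral_eq_lintegral_ofReal (Wn.int (w := S.w F A) (d := ⟨i, hi⟩)
        ((h.ct ⟨i, hi⟩).norm.pow p)) (.of_forall fun _ => pow_nonneg (norm_nonneg _) _)).ge.trans
        (ENNReal.ofReal_le_ofReal (hB ⟨i, hi⟩))
  obtain ⟨B, hB⟩ := this
  rcases K.eq_empty_or_nonempty with rfl | ⟨z, hz⟩
  · exact ⟨0, by simp⟩
  refine ⟨|B|, (hB.and (h z hz).sm).mono fun i k => ?_⟩
  rw [← ENNReal.ofReal_le_ofReal_iff (abs_nonneg B), ofReal_integral_eq_lintegral_ofReal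
    ((k.2.continuous.norm.fun_pow p).continuousOn.integrableOn_compact hc)
    (.of_forall fun _ => pow_nonneg (norm_nonneg _) _)]
  exact k.1.trans (ENNReal.ofReal_le_ofReal (le_abs_self B))

theorem of_cut {u : α → M → V} {χ : M → ℝ} (h1 : Sm I χ) (h2 : HasCompactSupport χ)
    (h3 : χ =ᶠ[𝓝 z] fun _ => 1) (hs : ∀ᶠ i in l, Sm I (u i))
    (h : ∃ K, ∀ᶠ i in l, F.nrm j (fun x => χ x • u i x) ≤ K) : HB l z F 2 (j + 1) u :=
  let ⟨K, h⟩ := h
  ((Ev.idx (hs.and h)).and (Ev.sub (eventually_eventually_nhds.2 h3))).mono fun _ S h =>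
    .of_ns (fun d => (h.1 d).1) fun r _ => ⟨K ^ 2, fun d => (Real.sqrt_le_left ((nrm_nonneg _ _).trans
      (h.1 d).2)).1 ((nS_le_cut (S.cpt r).isClosed.measurableSet h1 h2 (h.2 r) (h.1 d).1).trans
        (h.1 d).2)⟩

end HB

theorem jt_nrm {F : Pre I M ι} {X : Type} {w : Wn F X} {j : ℕ} {u : X → M → V}
    (h : w.Jt 2 (j + 1) u) (hs : ∀ d, tsupport (u d) ⊆ w.S d 1) : ∃ K, ∀ d, F.nrm j (u d) ≤ K :=
  let ⟨K, h⟩ := h.ns 1 one_pos
  ⟨√K, fun d => by rw [nrm_eq, ← NS_of_tsupport j (hs d)]; exact Real.sqrt_le_sqrt (h d)⟩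

theorem sup3' {F : Pre I M ι} {S : ℝ} {K : Set M} (hS : Cht98.SupOn F K S) {u : M → N} (hu : Sm I u)
    (hc : HasCompactSupport u) (hK : tsupport u ⊆ K) (x : M) : ‖u x‖ ^ 2 ≤ |S| * N2 F 3 u := by
  obtain ⟨L, hL, hx⟩ := exists_dual_vector'' ℝ (u x)
  have h1 := hS (fun y => L (u y)) (L.contMDiff.comp hu) (hc.comp_left (g := L) (map_zero L))
    ((tsupport_comp_subset (map_zero L) u).trans hK) x
  have h2 := n2_clm_le (μ := F.μ) F.sm L 3 hu (FL_of_hcs 3 hu hc)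
  rw [ip_eq, hx] at h1
  refine h1.trans ((mul_le_mul_of_nonneg_right (le_abs_self S) (n2_nonneg _ _)).trans
    (mul_le_mul_of_nonneg_left (h2.trans (mul_le_of_le_one_left (n2_nonneg _ _) ?_)) (abs_nonneg _)))
  exact pow_le_one₀ (norm_nonneg _) hL

theorem HB.sob0 {F : Pre I M ι} (hn : Module.finrank ℝ E ≤ 4) : ∀ {j : ℕ} {f : α → M → N},
    HB l z F 2 (j + 3) f → HB l z F 0 j f
  | 0, _, h => .zero h.sm
  | j + 1, f, h => .succ (.one0 h.sm (by
      obtain ⟨A, h1, S, k⟩ := Ev.ex (h.of_le (by omega : 3 + 1 ≤ _))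
      obtain ⟨χ, c1, c2, c3⟩ := S.cut 1 2 one_lt_two
      have c4 : HasCompactSupport χ := (S.cpt 1).of_isClosed_subset isClosed_closure c2
      obtain ⟨K, hK⟩ := ((Jt.cb (Cb_of_hcs c1 c4)).smul k).ns 1 one_pos
      obtain ⟨B, -, hB⟩ := Cht98.supOn F hn (S.cpt 1)
      refine ⟨√(|B| * K), mem_of_superset (prod_mem_prod h1 (S.nhd 2)) fun q hq => ?_⟩
      have t := (tsupport_smul_subset_left χ (f q.1)).trans c2
      have := sup3' hB (c1.smul (k.sm ⟨_, hq.1⟩)) c4.smul_right t q.2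
      rw [Pi.smul_apply', (c3 _ hq.2).self_of_nhds, one_smul] at this
      replace this := this.trans_eq (congrArg _ (NS_of_tsupport 3 t).symm)
      exact Real.le_sqrt_of_sq_le (this.trans (mul_le_mul_of_nonneg_left (hK ⟨_, hq.1⟩)
        (abs_nonneg _))))) fun a => sob0 hn (h.D a)

variable {F : Fr I M ι} {C C' : ℕ → ℝ} {u : α → M → V} {v : α → M → W} {A : Op M ι V W} {j : ℕ}

theorem HB.sob4 (hF : F.Tame C) (h : HB l z F.toPre 2 (j + 1) u) : HB l z F.toPre 4 j u :=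
  Ev.mono h fun _ _ h => h.sob4 hF

theorem HB.alg (hF : F.Tame C) (B : V →L[ℝ] W →L[ℝ] N) (h : HB l z F.toPre 2 (j + 1) u)
    (h0 : HB l z F.toPre 0 1 u) (h' : HB l z F.toPre 2 (j + 1) v) (h0' : HB l z F.toPre 0 1 v) :
    HB l z F.toPre 2 (j + 1) fun i x => B (u i x) (v i x) :=
  (Ev.and (Ev.and h h0) (Ev.and h' h0')).mono fun _ _ h => h.1.1.alg hF B h.1.2.lp h.2.1 h.2.2.lp

theorem HB.lp8 (hF : F.Tame C) {φ : α → M → ℝ} (h : HB l z F.toPre 2 3 φ) : HB l z F.toPre 8 1 φ :=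
  Ev.mono h fun _ _ h => .one h.sm (h.lp8 hF)

end Crest.Agent.X212.Loc74
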