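import Crest.Agent.X212.Loc74.Rhs
import Crest.Agent.X212.Num57.LEnd

/-!
# Row 212, SW-LOC (helper74): local compactness
-/

set_option autoImplicit false
set_option linter.unusedSectionVars false
noncomputable section
open scoped Manifold ContDiff Topology InnerProductSpace NNReal
open MeasureTheory Set Function Filter

namespace Crest.Agent.X212.Loc74
open An An.Pre Sob92 Lw78 Sw Rad57
open M (Mf)
open Cyl58 (om)

variable {κ lam ν : Type} [Fintype κ] [Fintype lam] [Fintype ν] [DecidableEq ν] {α : Type}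
  {l : Filter α} {X : Mf 4} {nc : ℕ} {V : Type} [NormedAddCommGroup V] [NormedSpace ℝ V]
  {ι : Type} [Fintype ι] {K : Set X.M} {f : α → X.M → V}

theorem l2_dens {μ : Measure X.M} {ρ : X.M → ℝ} (hρ : Continuous ρ) (hK : IsCompact K)
    (h : L2 μ l K f) : L2 (μ.withDensity fun x => ENNReal.ofReal (ρ x)) l K f := by
  obtain ⟨B, hB⟩ := h
  obtain ⟨C, hC⟩ := hK.exists_bound_of_continuousOn hρ.continuousOn
  refine ⟨C.toNNReal * B, hB.mono fun i k => ?_⟩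
  rw [restrict_withDensity hK.measurableSet]
  refine (lintegral_mono' (withDensity_mono (g := fun _ => ENNReal.ofReal C) ((ae_restrict_mem
    hK.measurableSet).mono fun x hx => ENNReal.ofReal_le_ofReal ((le_abs_self _).trans (hC x hx))))
    le_rfl).trans ?_
  rw [withDensity_const, lintegral_smul_measure, ENNReal.coe_mul]
  exact mul_le_mul_right k _

theorem HB.of_l2 {F : Pre X.I X.M ι} (hs : ∀ i, Sm X.I (f i)) (h : ∀ K, IsCompact K → L2 F.μ l K f)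
    (z : X.M) : HB l z F 2 1 f := by
  have := Manifold.locallyCompact_of_finiteDimensional (M := X.M) X.I
  obtain ⟨K, hK, hz⟩ := exists_compact_mem_nhds z
  obtain ⟨B, hB⟩ := h K hK
  refine .of_int hz hK two_ne_zero (.of_forall hs) ⟨B, hB.mono fun i k => ?_⟩
  rw [integral_eq_lintegral_of_nonneg_ae (.of_forall fun _ => by positivity)
    ((hs i).continuous.norm.fun_pow 2).aestronglyMeasurable]
  refine ENNReal.toReal_le_coe_of_le_coe (le_trans (le_of_eq ?_) k)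
  simp only [ENNReal.ofReal_pow (norm_nonneg _), ofReal_norm]

theorem cv_close [l.NeBot] [FiniteDimensional ℝ V] {g : X.M → V} (h : Cmp73.Cv X.I l univ f g)
    (F : Pre X.I X.M ι) (hK : IsCompact K) (k : ℕ) {η : ℝ} (hη : 0 < η) :
    ∀ᶠ i in l, ∀ w : List ι, w.length ≤ k → ∀ x ∈ K, ‖F.Dw w (f i - g) x‖ ≤ η := by
  have z : ∀ w : List ι, F.Dw w (fun _ => (0 : V)) = fun _ => 0 := fun w => by
    induction w with
    | nil => rfl
    | cons a w ih => rw [Pre.Dw, D_def, dv_const]; exact ih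
  have h0 : Cmp73.Cv X.I l univ (fun i => f i - g) fun _ => 0 :=
    (h.sub (.fixed isOpen_univ fun x hx => h.smoothAt isOpen_univ hx)).congr' isOpen_univ
      (.of_forall fun _ _ _ => rfl) fun x _ => (sub_self _).symm
  refine (eventually_all_finite (List.finite_length_le ι k)).2 fun w _ =>
    ((Cmp73.Cv.Dw isOpen_univ F w h0).unif isOpen_univ hK (subset_univ _) hη).mono fun i k x hx => ?_
  simpa only [z, sub_zero] using (k x hx).le

theorem hb_cv {F : Pre X.I X.M ι} [FiniteDimensional ℝ V] {𝒰 : Ultrafilter α}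
    (h : ∀ j z, HB 𝒰 z F 2 (j + 1) f) : ∃ g, Cmp73.Cv X.I 𝒰 univ f g :=
  Cmp73.MBOn.exists_cv fun k z _ => ((h (k + 3) z).sob0 (j := k + 1) X.dim.le).mb

variable {d : Dt κ lam ν} {N : Type} [Fintype N] {ty : N → d.𝓔}
  {T : Type} [NormedAddCommGroup T] [NormedSpace ℝ T] [FiniteDimensional ℝ T]

/-- **SW-LOC** -/
theorem locS (hL : LimStmt d ty X nc T) : LocStmt d ty X nc T := by
  intro s 𝓕 h α 𝒰 t q c t₀ q₀ C h₀ ht hq h1 h2
  classical
  have n := nb h h₀ ht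
  have Q := ht.eventually (h.opn.mem_nhds h₀)
  have H : Sq 𝒰 𝓕 t q c := ⟨h1.mono fun _ k => ⟨k.1, k.2.2⟩, fun K hK =>
    let ⟨r, hr⟩ := sub_core s hK
    let ⟨_, k⟩ := h2 r
    k.mono fun _ k x hx => k.1 x (hr hx)⟩
  let g := fun i => if t i ∈ 𝓕.Q ∧ (𝓕.P (t i)).bg.Adm (c i) then t1 (mx 𝓕 (t i) t₀) (c i).a else 0
  have g1 : ∀ i, Frm (𝓕.P t₀).bg.F (g i) := fun i => by
    simp only [g]
    split_ifs with k
    exacts [(adm_mx h h₀ k.1 k.2).1, ⟨fun _ => contMDiff_const, by simp⟩]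
  have g2 : ∀ᶠ i in (𝒰 : Filter α), g i = t1 (mx 𝓕 (t i) t₀) (c i).a :=
    (Q.and h1).mono fun i k => if_pos ⟨k.1, k.2.1⟩
  have cN : ∀ a k, Cmp73.Cv X.I 𝒰 univ (fun i => mx 𝓕 (t i) t₀ a k) (mx 𝓕 t₀ t₀ a k) := fun a k =>
    .sum fun e => (Cmp73.Cv.fixed' ((h.sS a e).cb _ h₀).choose_spec.1).mul (sb_cv h h₀ ht (h.sSi e k))
  obtain ⟨u, u1, u2⟩ := gau X nc N _ (𝓕.P t₀).toPz (h.ok _ h₀).toOK α 𝒰 g g1 fun K hK => by
    obtain ⟨ρ, r1, r2⟩ := h.dens
    obtain ⟨r, hr⟩ := sub_core s hK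
    obtain ⟨B, hB⟩ := h2 r
    have b : ∀ {V : Type} [NormedAddCommGroup V] [NormedSpace ℝ V] {f : α → X.M → V},
        Cmp73.MBOn X.I 𝒰 univ f → ∃ A, ∀ᶠ i in (𝒰 : Filter α), ∀ x ∈ K, ‖f i x‖ ≤ A := fun {_ _ _ f} k =>
      hK.induction_on (p := fun K => ∃ A, ∀ᶠ i in (𝒰 : Filter α), ∀ x ∈ K, ‖f i x‖ ≤ A) ⟨0, by simp⟩
        (fun _ _ e ⟨A, k⟩ => ⟨A, k.mono fun _ k x hx => k x (e hx)⟩)
        (fun _ _ ⟨A, k⟩ ⟨A', k'⟩ => ⟨max A A', (k.and k').mono fun _ k x hx =>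
          hx.elim (fun e => le_max_of_le_left (k.1 x e)) fun e => le_max_of_le_right (k.2 x e)⟩)
        fun x _ => let ⟨A, k⟩ := (k 0 x trivial).bdd; let ⟨_, k1, _, k2, k⟩ := eventually_prod_iff.1 k
          ⟨_, nhdsWithin_le_nhds k2, A, k1.mono fun _ e _ e' => k e e'⟩
    obtain ⟨A, hA⟩ := b (f := fun i => t2 (mx 𝓕 (t i) t₀)) (cv_tp fun s => .sum fun r =>
      ((cN _ _).mul (cN _ _)).smul (.const _)).mb
    obtain ⟨A', hA'⟩ := b fun k z _ => (n.fc0 (z := z) (p := 0) (j := k + 1)).mb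
    rw [(r2 _ h₀).2]
    refine l2_dens (r1.cb _ h₀).choose_spec.1.continuous hK (l2_le (l2_add (f := fun _ _ => |A'|)
      (g := fun i x => ‖(𝓕.P (t i)).bg.fc (c i) x‖) (l2_bdd hK.measurableSet hK.measure_ne_top _
        (.of_forall fun _ _ _ => le_rfl)) ⟨B.toNNReal, hB.mono fun i k => by
          simp only [enorm_norm]; exact (lintegral_mono_set hr).trans k.2⟩
        fun _ => continuous_const) hK.measurableSet A ?_)
    filter_upwards [g2, Q, h1, hA, hA'] with i k1 k2 k3 k4 k5 x hx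
    have o := (h.ok _ k2).bg
    rw [k1, da_mix (mix_mx h k2 h₀) (sm_mx h k2 h₀) k3.1.sa ((show (𝓕.P (t i)).bg.F.P = _ from
      o.G.P) ▸ k3.1.pa), eq_sub_of_add_eq' (fc_da o k3.1.sa x).symm]
    refine (ContinuousLinearMap.le_opNorm _ _).trans (mul_le_mul (k4 x hx) ((norm_sub_le _ _).trans
      (le_trans ?_ (le_abs_self _))) (norm_nonneg _) ((norm_nonneg _).trans (k4 x hx)))
    linarith [k5 x hx, le_abs_self A']
  have H1 := H.act h h₀ ht u1
  obtain ⟨v, v1, v2⟩ := n.boot (c := fun i => (𝓕.P (t i)).bg.act (u i) (c i)) (C := C)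
    (g := fun i k x => g i k x - om (𝓕.P t₀).bg.F (u i) k x) (fun i => ⟨fun k => ((g1 i).sm k).sub
      (Cyl58.sm_om _ (u1 i) k), fun k x => by
        simp only [mul_sub, Finset.sum_sub_distrib, (g1 i).pr, Cyl58.om_P _ (u1 i)]⟩) (by
      filter_upwards [g2, Q, h1, H1.adm, n.ok] with i k1 k2 k3 k4 k5
      refine ⟨k4.1, funext₂ fun a x => ?_, fun x => (Pb50.norm_act k5.1 ((u1 i).2 x)).trans_le
        (k3.2.1 x)⟩
      refine (congrArg (· - _) (congrFun₂ (adm_mx h h₀ k2 k3.1).2 a x)).trans ?_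
      rw [← k1]
      simp only [t1, om, k5.2.2.2.2.D, mul_sub, Finset.sum_sub_distrib, Finset.mul_sum,
        Complex.im_sum, mul_smul_comm, Complex.smul_im, smul_eq_mul])
    (fun z k => .of_l2 (fun i => ((g1 i).sm k).sub (Cyl58.sm_om _ (u1 i) k)) (u2 · · k) z)
    fun v hv j I => (H1.act h h₀ ht hv).rhs h h₀ ht hq I
  have H2 := H1.act h h₀ ht v1
  choose a ha using fun k => hb_cv fun j z => (v2 j z).a k
  obtain ⟨Φ, hΦ⟩ := hb_cv fun j z => (v2 j z).Φ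
  refine ⟨⟨a, Φ⟩, hL s 𝓕 h α 𝒰 t q _ t₀ q₀ ⟨a, Φ⟩ h₀ ht hq H2.adm H2.eq ha hΦ, fun r k η hη => ?_⟩
  have cα : Cmp73.Cv X.I 𝒰 univ (fun i => 𝓕.al (t i) ((𝓕.P (t i)).bg.act (v i)
      ((𝓕.P (t i)).bg.act (u i) (c i)))) (𝓕.al t₀ ⟨a, Φ⟩) :=
    (Cmp73.Cv.sum fun e => (Cmp73.Cv.sum fun b => (sb_cv h h₀ ht (h.sSi e b)).mul (ha b)).clm
      (Map77.ij ℝ e)).congr (fun _ _ => .of_forall fun _ => fm_sum _) fun _ _ => fm_sum _
  filter_upwards [cv_close cα s.bg.F.toPre (h.site.cpt r) k hη,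
    cv_close hΦ s.bg.F.toPre (h.site.cpt r) k hη, n.ok] with i k1 k2 k3
  refine ⟨_, (Cyl58.gau_mul s.bg.F (v1 i) (u1 i)).1, fun w hw x hx => ?_⟩
  rw [← Pb50.act_act k3.1 (u1 i) (v1 i)]
  exact ⟨k1 w hw x hx, k2 w hw x hx⟩

end Crest.Agent.X212.Loc74
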