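import Crest.Agent.X212.Loc74.Tr
import Crest.Agent.X212.Loc74.SwD
import Crest.Agent.X212.Lw78.Co
import Crest.Agent.X212.Dl42.Main

/-!
# Row 212, SW-LOC (helper74): the terms on the necks
-/

set_option autoImplicit false
set_option linter.unusedSectionVars false
noncomputable section
open scoped Manifold ContDiff Topology InnerProductSpace Convolution
open MeasureTheory Set Function Filter

namespace Crest.Agent.X212.Loc74
open An An.Pre Sob92 Lw78 Cyf70 Sw Sw.En3 Dl42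
open Nd18 (Jv Dp)
open M (Mf)
open Win45 (FY FZ)

variable {κ lam ν : Type} [Fintype κ] [Fintype lam] [Fintype ν] [DecidableEq ν] {α : Type}
  {l : Filter α} {j p : ℕ} {X : Mf 4} {nc : ℕ} {V : Type} [NormedAddCommGroup V] [NormedSpace ℝ V]

variable (l j) in
/-- the bounds of level `j` near `z` -/
structure IH {ι : Type} [Fintype ι] (F : Pre X.I X.M ι) (z : X.M) (c : α → Cfg X.M κ ν) : Prop where
  a : ∀ k, HB l z F 2 (j + 1) fun n => (c n).a k
  Φ : HB l z F 2 (j + 1) fun n => (c n).Φ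
  bd : HB l z F 0 1 fun n => (c n).Φ

theorem icc_dp {p q : Option ℝ} {σ r : ℝ} (s : ℝ) (h : σ ∈ Dp p q r) :
    Icc (σ - s) (σ + s) ⊆ Dp p q (r - s) := fun _ k =>
  ⟨fun a ha => by linarith [h.1 a ha, k.1], fun a ha => by linarith [h.2 a ha, k.2]⟩

section cyl
variable {e : En3 κ lam ν} {x : e.Y.M × ℝ}

theorem HB.Dy {f : α → ℝ → e.Y.M → V} (h : HB l x (FZ e) p (j + 1) fun n y => f n y.2 y.1) (a : κ) :
    HB l x (FZ e) p j fun n y => e.D.F.D a (f n y.2) y.1 :=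
  (h.D (some a)).eq (h.sm.mono fun _ k y => (D_some _ k a y).symm)

theorem HB.fy {f : e.Y.M → V} (h : Sm e.Y.I f) : HB l x (FZ e) p j fun _ y => f y.1 :=
  .fixed (sm_fst h)

theorem hb_dens (he : e.OK) {c : α → e.ZC} (h : IH (X := e.Z) l 1 (FZ e) x c) :
    HB l x (FZ e) 1 1 fun n y => dens (sl (c n) y.2) y.1 := by
  have H : Hol 2 2 1 := .inr (.inr ⟨one_ne_zero, rfl, rfl⟩)
  have a := fun k => h.a (some k)
  have d := fun i k => HB.Dy (f := fun n s => (sl (c n) s).a k) (a k) i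
  have d' := fun i => HB.Dy (f := fun n s => (sl (c n) s).Φ) h.Φ i
  have f := h.Φ.pred
  have k1 := HB.sum fun k => ((HB.fy (sm_g0 he k)).smul (a k).pred).to1
  have k2 := HB.sum fun k => HB.bil (.mul ℝ ℝ) H (HB.sum fun i => HB.sum fun i' =>
    (HB.fy (sm_G he k i i')).smul (((d i i').sub (d i' i)).sub (HB.sum fun m =>
      (HB.fy (e.D.F.c_sm i i' m)).smul (a m).pred))) (a k).pred
  have k3 := HB.bil (innerSL ℝ) H ((HB.sum fun k => (HB.fy ((sy he).sm k)).app ((d' k).add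
    ((HB.fy ((conA he).sm k)).app f))).add ((HB.fy (sm_Z he)).app f)).neg f
  have k4 := HB.sum fun k => HB.bil (.mul ℝ ℝ) H (a k).pred (HB.bil (innerSL ℝ) (holL 2)
    (((HB.fy ((sy he).sm k)).app h.bd).clm e.m.J) f)
  exact ((((HB.const (4 : ℝ)).smul k1).add ((HB.const (1 / 2 : ℝ)).smul k2)).add
    ((HB.const (e.w / 2)).smul k3)).sub ((HB.const (e.w / 2)).smul k4)

theorem L_le (he : e.OK) : ∃ A B, 0 ≤ B ∧ ∀ v : e.YC, Ay v →
    |L v| ≤ A + ∫ y, (‖dens v y‖ ^ 1 + B * ‖v.Φ y‖ ^ 2) ∂e.D.F.μ := by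
  obtain ⟨B, hB⟩ := b_bd he
  obtain ⟨A, hA⟩ := he.bf 0
  have w : 0 ≤ e.w := he.cyl.w
  have B0 := (norm_nonneg _).trans (hB 0 le_rfl)
  refine ⟨A + |Lt (⟨0, 0⟩ : e.YC)|, e.w / 2 * B, mul_nonneg (div_nonneg w zero_le_two) B0,
    fun v h => ?_⟩
  have n0 : 0 ≤ nm v := integral_nonneg fun _ => sq_nonneg _
  have k1 : |Bi e (nm v)| ≤ B * nm v := (intervalIntegral.norm_integral_le_of_norm_le_const
    fun r hr => hB r (uIoc_of_le n0 ▸ hr).1.le).trans_eq (by rw [sub_zero, abs_of_nonneg n0])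
  have s := (hb_dens (l := pure ()) (c := fun _ => fz v) (x := (Classical.arbitrary _, 0)) he
    ⟨fun k => .fixed (h.adm.sa k), .fixed h.adm.sΦ, .fixed h.adm.sΦ⟩).sm
  have k2 := norm_integral_le_integral_norm (μ := e.D.F.μ) (dens v)
  have i1 : Integrable (fun y => ‖dens v y‖ ^ 1) e.D.F.μ :=
    (ii _ (sm_slice_fst s 0)).norm.congr (.of_forall fun _ => (pow_one _).symm)
  have i2 : Integrable (fun y => ‖v.Φ y‖ ^ 2) e.D.F.μ := intY _ (h.sΦ.continuous.norm.fun_pow 2)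
  rw [L_eq he h, Dl42.Lt, integral_add i1 (i2.const_mul _), integral_const_mul]
  simp only [pow_one]
  have k3 := mul_le_mul_of_nonneg_left k1 (div_nonneg w zero_le_two)
  have k4 : |e.f (hol v)| ≤ A := hA _
  rw [← abs_of_nonneg (div_nonneg w zero_le_two), ← abs_mul, abs_of_nonneg
    (div_nonneg w zero_le_two), ← mul_assoc] at k3
  exact (abs_sub _ _).trans (((add_le_add_left ((abs_sub _ _).trans (add_le_add ((abs_add_le _ _).trans
    (add_le_add k2 k4)) k3)) _)).trans_eq (by rw [nm]; ring))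

variable {b : Bg X.I X.M κ lam ν nc} (K : Nk e b) {c : α → Cfg X.M κ ν} {σ r : ℝ}

theorem IH.pull (h : ∀ z, IH l j b.F.toPre z c) (hr : r < 7 / 8) (hσ : σ ∈ Dp K.p K.q (7 / 8)) :
    ∃ c' : α → e.ZC, (∀ y ∈ univ ×ˢ Icc (σ - r) (σ + r), IH (X := e.Z) l j (FZ e) y c') ∧
      ∀ n, ∀ s ∈ Icc (σ - r) (σ + r), sl (K.pb (c n)) s = sl (c' n) s := by
  set δ := (7 / 8 - r) / 4
  have δ0 : 0 < δ := by positivity
  set θ := ct δ (σ - (r + 2 * δ)) (σ + (r + 2 * δ))
  have h1 : ∀ s ∈ Icc (σ - r) (σ + r), ∀ᶠ t in 𝓝 s, θ t = 1 := fun s hs =>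
    mem_of_superset (Icc_mem_nhds (by linarith [hs.1]) (by linarith [hs.2])) fun _ => ct_one δ0
  have h2 : tsupport (fun x : e.Y.M × ℝ => θ x.2) ⊆ K.ψ.source := fun x hx => K.mem_src.2
    (Nd18.Dp_sub (by simp only [δ]; linarith) (icc_dp _ hσ (ct_tsupp δ0 hx).2))
  have k : ∀ {V : Type} [NormedAddCommGroup V] [NormedSpace ℝ V] {f : α → X.M → V} {p j : ℕ},
      (∀ z, HB l z b.F.toPre p j f) → ∀ y ∈ univ ×ˢ Icc (σ - r) (σ + r),
      HB l y (FZ e) p j fun n x => θ x.2 • f n (K.ψ x) := fun h y hy =>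
    have := continuous_snd.continuousAt.eventually (h1 _ hy.2)
    (h _).tr K.iso (h2 (subset_tsupport _ (by simp [this.self_of_nhds]))) ((h (K.ψ y)).sm.mono
      fun _ k => Neck67.sm_bil_on (ContinuousLinearMap.lsmul ℝ ℝ).flip
        (fun _ hx => Pb50.sa_ψ K hx (k _)) (sm_snd cd_ct) h2)
      ((tendsto_snd.eventually this).mono fun _ k => by rw [k, one_smul])
  refine ⟨fun n => ⟨fun i x => θ x.2 • (c n).a i (K.ψ x), fun x => θ x.2 • (c n).Φ (K.ψ x)⟩,
    fun y hy => ⟨fun i => k (fun z => (h z).a i) y hy, k (fun z => (h z).Φ) y hy,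
      k (fun z => (h z).bd) y hy⟩, fun n s hs => ?_⟩
  simp only [sl, (h1 s hs).self_of_nhds, one_smul]
  rfl

theorem ev_snd {P : ℝ → Prop} (hr : 0 < r) (h : ∀ s ∈ Icc (x.2 - r) (x.2 + r), P s) :
    ∀ᶠ q : α × e.Y.M × ℝ in l ×ˢ 𝓝 x, P q.2.2 :=
  tendsto_snd.eventually (continuous_snd.continuousAt.eventually (mem_of_superset
    (Icc_mem_nhds (by linarith) (by linarith)) h))

variable (he : e.OK) (h : ∀ z, IH l j b.F.toPre z c) (hx : x.2 ∈ Dp K.p K.q (7 / 8))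
include he h hx

theorem lc_nm : Lc l (FZ e) x j fun n y => e.b (nm (sl (K.pb (c n)) y.2)) := by
  obtain ⟨c', h1, h2⟩ := IH.pull K h (by norm_num : (1 / 2 : ℝ) < _) hx
  obtain ⟨_, hF⟩ := he.cyl.tame
  obtain ⟨B, hB⟩ := b_bd he
  exact (Lc.fn (u := fun n y => ‖(c' n).Φ y‖ ^ 2) he.sb one_half_pos (fun y hy =>
    (HB.alg hF (innerSL ℝ) (h1 y hy).Φ (h1 y hy).bd (h1 y hy).Φ (h1 y hy).bd).eq
      (.of_forall fun _ _ => (real_inner_self_eq_norm_sq _).symm))
    ⟨B, fun _ _ => hB _ (integral_nonneg fun _ => sq_nonneg _)⟩).congr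
    ((ev_snd (P := fun s => ∀ n, _) one_half_pos fun s hs n => h2 n s hs).mono fun q k => by
      simp only [k q.1]; rfl)

theorem lc_hol : Lc l (FZ e) x j fun n y => deriv e.f (hol (sl (K.pb (c n)) y.2)) := by
  obtain ⟨c', h1, h2⟩ := IH.pull K h (by norm_num : (1 / 2 : ℝ) < _) hx
  obtain ⟨B, hB⟩ := he.bf 1
  rw [iteratedDeriv_one] at hB
  exact (Lc.fn (u := fun n y => 4 * ∑ k, e.ζ y.1 (none, some k) * (c' n).a (some k) y)
    (contDiff_infty_iff_deriv.1 he.sf).2 one_half_pos (fun y hy => (HB.const (4 : ℝ)).smul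
      (.sum fun k => (HB.fy (sm_ζ he _)).smul ((h1 y hy).a (some k)))) ⟨B, fun _ _ => hB _⟩).congr
    ((ev_snd (P := fun s => ∀ n, _) one_half_pos fun s hs n => h2 n s hs).mono fun q k => by
      simp only [k q.1]; rfl)

omit h in
theorem int_L (h : ∀ z, IH l 1 b.F.toPre z c) (hc : ∀ᶠ n in l, b.Adm (c n)) : ∃ B, ∀ᶠ n in l,
    ∫ s in Icc (x.2 - 3 / 4) (x.2 + 3 / 4), |L (sl (K.pb (c n)) s)| ≤ B := by
  obtain ⟨c', h1, h2⟩ := IH.pull K h (by norm_num : (3 / 4 : ℝ) < _) hx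
  obtain ⟨A, B, B0, hL⟩ := L_le he
  have cp := (isCompact_univ (X := e.Y.M)).prod (isCompact_Icc (a := x.2 - 3 / 4) (b := x.2 + 3 / 4))
  obtain ⟨B1, k1⟩ := HB.int cp fun y hy => hb_dens he (h1 y hy)
  obtain ⟨B2, k2⟩ := HB.int cp fun y hy => (h1 y hy).Φ.pred
  have x0 : x ∈ univ ×ˢ Icc (x.2 - 3 / 4) (x.2 + 3 / 4) := ⟨trivial, by linarith, by linarith⟩
  refine ⟨A * (volume (Icc (x.2 - 3 / 4) (x.2 + 3 / 4))).toReal + (B1 + B * B2), ?_⟩
  filter_upwards [k1, k2, hc, (hb_dens he (h1 x x0)).sm, (h1 x x0).Φ.sm] with n k1 k2 k3 s1 s2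
  have c1 := s1.continuous.norm.fun_pow 1
  have c2 := s2.continuous.norm.fun_pow 2
  have c3 := c1.fun_add (continuous_const (y := B).fun_mul c2)
  have i := c3.continuousOn.integrableOn_compact (μ := (FZ e).μ) cp
  have i' := i
  rw [IntegrableOn, cylP_μ, ← Measure.prod_restrict, Measure.restrict_univ] at i'
  refine (integral_mono_of_nonneg (.of_forall fun _ => abs_nonneg _) ((integrable_const A).add
    i'.integral_prod_right) ((ae_restrict_mem measurableSet_Icc).mono fun s hs => ?_)).trans ?_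
  · have := hL _ (ay_of (Pb50.sl_adm fun y => Pb50.la_ψ K (Pb50.src K (Nd18.Dp_sub (by norm_num)
      (icc_dp _ hx hs)) y) (.of_adm k3 _)))
    beta_reduce
    rw [h2 n s hs] at this ⊢
    exact this
  · rw [integral_add' (integrable_const A) i'.integral_prod_right, ← int_S _ c3, integral_add
      (c1.continuousOn.integrableOn_compact cp) ((c2.continuousOn.integrableOn_compact cp).const_mul _),
      integral_const_mul]
    simp only [integral_const, smul_eq_mul, mul_comm _ A, Measure.real, Measure.restrict_apply_univ]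
    gcongr

end cyl

section fam
variable {d : Dt κ lam ν} {N : Type} [Fintype N] {ty : N → d.𝓔}
  {T : Type} [NormedAddCommGroup T] [NormedSpace ℝ T] [FiniteDimensional ℝ T]
  {s : Pz X 0 fun i => d.e (ty i)} {𝓕 : Fam s nc T} {t₀ : T} {i : N}
  {K₀ : Nk (d.e (ty i)) (𝓕.P t₀).bg} {g : T × ℝ → ℝ} {U : Set T} (m : Mv 𝓕 t₀ i K₀ g U)
  {t : α → T} (ht : Tendsto t l (𝓝 t₀)) {c : α → Cfg X.M κ ν} {x : (d.e (ty i)).Y.M × ℝ}
include m ht

theorem Mv.ev : ∀ᶠ n in l, ∃ K, (𝓕.P (t n)).nk i = some K ∧ Mt i K K₀ fun σ => g (t n, σ) :=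
  (ht.eventually m.nhd).mono fun _ k => m.mt _ k

theorem Mv.tend (σ : ℝ) : Tendsto (fun q : α × ℝ => g (t q.1, q.2)) (l ×ˢ 𝓝 σ) (𝓝 (g (t₀, σ))) :=
  (m.sm.continuousOn.continuousAt (prod_mem_nhds m.nhd univ_mem)).tendsto.comp
    ((ht.comp tendsto_fst).prodMk_nhds tendsto_snd)

theorem Mv.tend' (σ : ℝ) : Tendsto (fun n => g (t n, σ)) l (𝓝 (g (t₀, σ))) :=
  (m.tend ht σ).comp (tendsto_id.prodMk tendsto_const_nhds)

theorem Mv.cut : HB l x (FZ (d.e (ty i))) p j fun n y => Nd18.ct (K₀.p.map fun σ => g (t n, σ))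
    (K₀.q.map fun σ => g (t n, σ)) 1 (g (t n, y.2)) := by
  have γ : HB l x (FZ (d.e (ty i))) 0 j fun n y => g (t n, y.2) :=
    .param ht m.nhd m.sm (sm_snd contDiff_id)
  refine HB.of0 (.smul (φ := fun n y => (K₀.p.map fun σ => g (t n, σ)).elim 1 _)
    (f := fun n y => (K₀.q.map fun σ => g (t n, σ)).elim 1 _) ?_ ?_)
  · cases K₀.p
    exacts [.const 1, ((γ.sub (.consts (m.tend' ht _))).sub (.const 1)).comp
      Real.smoothTransition.contDiff]
  · cases K₀.q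
    exacts [.const 1, (((HB.consts (m.tend' ht _)).sub γ).sub (.const 1)).comp
      Real.smoothTransition.contDiff]

theorem Mv.term {S : (d.e (ty i)).ZC → ℝ → ℝ} {fo : (d.e (ty i)).Y.M → V} (hf : Sm (d.e (ty i)).Y.I fo)
    (h : ∀ x : (d.e (ty i)).Y.M × ℝ, x.2 ∈ Dp K₀.p K₀.q (7 / 8) → Lc l (FZ _) x j fun n y =>
      ((𝓕.P (t n)).nk i).elim 0 fun K => S (K.pb (c n)) (g (t n, y.2))) (z : X.M) :
    Lc l (𝓕.P t₀).bg.F.toPre z j fun n x =>
      ((𝓕.P (t n)).nk i).elim 0 fun K => S (K.pb (c n)) (K.tm x) • K.ext fo x := by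
  by_cases hz : z ∈ K₀.dp (7 / 8)
  · have h1 := K₀.dp_sub (by norm_num) hz
    refine (((h _ (K₀.snd_symm h1 ▸ hz)).bil (.lsmul ℝ ℝ) ((m.cut ht).smul (.fy hf))).tr
      (iso_symm K₀.iso) h1).congr ?_
    filter_upwards [tendsto_fst.eventually (m.ev ht),
      tendsto_snd.eventually (K₀.ψ.open_target.mem_nhds h1)] with q ⟨K, k1, k2⟩ k3
    simp only [k1, Option.elim_some, Nd18.Nk.ext, Nd18.Nk.χ, Nd18.Nk.cut, (k2.symm k3).2, k2.tm k3,
      K₀.snd_symm k3, k2.p, k2.q, ContinuousLinearMap.lsmul_apply]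
  · refine (Lc.of (.const 0)).congr ?_
    filter_upwards [tendsto_fst.eventually ((m.ev ht).and (ht.eventually (m.dp (r' := 7 / 8)
      (by norm_num) (by norm_num : _ < (1 : ℝ)) (by norm_num)))),
      tendsto_snd.eventually (K₀.isClosed_dp.isOpen_compl.mem_nhds hz)] with q ⟨⟨K, k1, k2⟩, k3⟩ k4
    rw [k1, Option.elim_some, K.ext_zero _ fun k => k4 (k3 _ ?_), smul_zero]
    rw [← k2.p, ← k2.q, ← k2.tm (k2.tgt (K.dp_sub one_pos k))]
    exact k

theorem Mv.slc {G : (d.e (ty i)).YC → ℝ} (hx : x.2 ∈ Dp K₀.p K₀.q (7 / 8))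
    (h : Lc l (FZ _) x j fun n y => G (sl (K₀.pb (c n)) y.2)) : Lc l (FZ _) x j fun n y =>
      ((𝓕.P (t n)).nk i).elim 0 fun K => G (sl (K.pb (c n)) (g (t n, y.2))) := by
  refine h.congr ?_
  filter_upwards [tendsto_fst.eventually (m.ev ht), ev_snd (l := l) (P := (· ∈ K₀.J)) one_half_pos
    fun _ k => Nd18.Dp_sub (by norm_num) (icc_dp _ hx k)] with q ⟨K, k1, k2⟩ k3
  rw [k1, Option.elim_some, k2.sl _ k3]

theorem Mv.dbd {K : Set ℝ} (hK : IsCompact K) :
    ∃ B, ∀ᶠ n in l, ∀ σ ∈ K, |deriv (fun σ => g (t n, σ)) σ| ≤ B := by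
  have c : ∀ σ, ContinuousAt (fun v => fderiv ℝ g v (0, 1)) (t₀, σ) := fun σ =>
    (((m.sm.contDiffAt (prod_mem_nhds m.nhd univ_mem)).of_le (by exact_mod_cast le_top :
      (1 : ℕ∞ω) ≤ ∞)).continuousAt_fderiv one_ne_zero).clm_apply continuousAt_const
  obtain ⟨B, hB⟩ := hK.exists_bound_of_continuousOn (f := fun σ => fderiv ℝ g (t₀, σ) (0, 1))
    fun σ _ => ((c σ).comp (f := fun σ => (t₀, σ)) (by fun_prop)).continuousWithinAt
  refine ⟨B + 1, Cmp73.ev_compact hK fun σ hσ => ?_⟩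
  filter_upwards [((c σ).tendsto.comp ((ht.comp tendsto_fst).prodMk_nhds tendsto_snd)).norm.eventually
    (gt_mem_nhds ((hB σ hσ).trans_lt (lt_add_one B))), tendsto_fst.eventually
      (ht.eventually (eventually_eventually_nhds.2 m.nhd))] with q k1 k2
  exact (congrArg abs (((m.sm.contDiffAt (prod_mem_nhds k2 univ_mem)).differentiableAt
    (by simp)).hasFDerivAt.comp_hasDerivAt q.2 ((hasDerivAt_const _ _).prodMk
      (hasDerivAt_id _))).deriv).trans_le k1.le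

theorem Mv.lc_lb (he : (d.e (ty i)).OK) (h : ∀ z, IH l j (𝓕.P t₀).bg.F.toPre z c)
    (hc : ∀ᶠ n in l, (𝓕.P t₀).bg.Adm (c n) ∧ (𝓕.P (t n)).bg.Adm (c n)) (Y : (d.e (ty i)).YT)
    (hx : x.2 ∈ Dp K₀.p K₀.q (7 / 8)) : Lc l (FZ _) x j fun n y =>
      ((𝓕.P (t n)).nk i).elim 0 fun K => Y.b (lb (K.pb (c n)) (g (t n, y.2))) := by
  have s1 : ContDiff ℝ ∞ bp := (contDiff_infty_iff_deriv.1 Real.smoothTransition.contDiff).2
  have s2 : ContDiff ℝ ∞ fun t => bp (1 / 2 - t) := by fun_prop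
  have c2 : HasCompactSupport fun t => bp (1 / 2 - t) :=
    (HasCompactSupport.intro isCompact_Icc fun _ => Pb50.bp_zero).comp_homeomorph (.subLeft _)
  set θ := ct (1 / 16) (x.2 - 5 / 8) (x.2 + 5 / 8)
  set u := fun n τ => θ τ * ((𝓕.P (t n)).nk i).elim 0 fun K => L (sl (K.pb (c n)) τ) with hu
  have J := (icc_dp (3 / 4) hx).trans (Nd18.Dp_mono (by norm_num : (1 / 8 : ℝ) ≤ _))
  have J0 := fun σ k => m.id σ (Nd18.Dp_mono (by norm_num) (J k))
  have t1 := ct_supp (a := x.2 - 5 / 8) (b := x.2 + 5 / 8) (by norm_num : (0 : ℝ) < 1 / 16)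
  have cu : ∀ n, HasCompactSupport (u n) := fun n =>
    HasCompactSupport.mul_right (isCompact_Icc.of_isClosed_subset isClosed_closure t1)
  have e1 : ∀ᶠ n in l, ∃ K, (𝓕.P (t n)).nk i = some K ∧ Mt i K K₀ (fun σ => g (t n, σ)) ∧
      Continuous (u n) ∧ tsupport θ ⊆ (fun σ => g (t n, σ)) '' Icc (x.2 - 3 / 4) (x.2 + 3 / 4) ∧
      ContinuousOn (fun τ => L (sl (K.pb (c n)) τ)) K.J := by
    filter_upwards [m.ev ht, hc, (m.tend' ht (x.2 - 3 / 4)).eventually (gt_mem_nhds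
      ((J0 _ ⟨le_rfl, by linarith⟩).trans_lt (by linarith : _ < x.2 - 5 / 8))),
      (m.tend' ht (x.2 + 3 / 4)).eventually (lt_mem_nhds ((by linarith : x.2 + 5 / 8 < _).trans_eq
        (J0 _ ⟨by linarith, le_rfl⟩).symm))] with n ⟨K, k1, k2⟩ k3 k4 k5
    have k6 := (t1.trans (Icc_subset_Icc k4.le k5.le)).trans
      (intermediate_value_Icc (f := fun σ => g (t n, σ)) (by linarith) k2.cont.continuousOn)
    have k7 := (dl _ he _ _ Nd18.isOpen_Jv (Pb50.admOn_pb K k3.2)).1.continuousOn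
    refine ⟨K, k1, k2, continuous_of_tsupport fun τ hτ => cd_ct.continuous.continuousAt.mul ?_, k6, k7⟩
    obtain ⟨σ, k8, rfl⟩ := k6 (tsupport_mul_subset_left hτ)
    simp only [k1, Option.elim_some]
    exact k7.continuousAt (Nd18.isOpen_Jv.mem_nhds ((k2.mem σ).2 (Nd18.Dp_sub (by norm_num) (J k8))))
  have γ : ∀ j, HB l x (FZ (d.e (ty i))) 0 j fun n y => g (t n, y.2) := fun _ =>
    .param ht m.nhd m.sm (sm_snd contDiff_id)
  have G1 := e1.mono fun n ⟨_, _, _, k, _⟩ => c2.contDiff_convolution_left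
    (ContinuousLinearMap.mul ℝ ℝ) s2 (k.locallyIntegrable (μ := volume))
  refine (Lc.of (f := fun n y => Y.b (((fun t => bp (1 / 2 - t)) ⋆[ContinuousLinearMap.mul ℝ ℝ] u n)
    (g (t n, y.2)))) ?_).congr ?_
  · cases j with
    | zero =>
      obtain ⟨B, hB⟩ := (HasCompactSupport.of_support_subset_isCompact he.S Y.S).exists_bound_of_continuous
        Y.sb.continuous
      exact .one0 ((G1.and (γ 0).sm).mono fun _ k => sm_comp Y.sb (sm_comp k.1 k.2))
        ⟨B, .of_forall fun _ => hB _⟩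
    | succ j =>
      obtain ⟨B, hB⟩ := int_L K₀ he hx (fun z => ⟨fun k => ((h z).a k).of_le (by omega),
        (h z).Φ.of_le (by omega), (h z).bd⟩) (hc.mono fun _ k => k.1)
      obtain ⟨D, hD⟩ := m.dbd ht (isCompact_Icc (a := x.2 - 3 / 4) (b := x.2 + 3 / 4))
      refine .comp Y.sb (.compI G1 (fun k => ?_) (γ _))
      obtain ⟨A, A0, hA⟩ := cv_bd1 k s2 c2
      refine ⟨A * (|D| * B), ?_⟩
      filter_upwards [e1, hB, hD] with n ⟨K, k1, k2, k3, k4, k5⟩ k6 k7 τ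
      refine (hA _ k3 (k3.integrable_of_hasCompactSupport (cu n)) τ).trans
        (mul_le_mul_of_nonneg_left ?_ A0)
      have k8 : ∀ σ ∈ Icc (x.2 - 3 / 4) (x.2 + 3 / 4), σ ∈ K₀.J := fun σ k =>
        Nd18.Dp_sub (by norm_num) (J k)
      have k9 : ContinuousOn (fun σ => |L (sl (K₀.pb (c n)) σ)|) (Icc (x.2 - 3 / 4) (x.2 + 3 / 4)) :=
        ((k5.comp k2.cont.continuousOn fun σ k => (k2.mem σ).2 (k8 σ k)).congr
          fun σ k => by simp only [Function.comp, k2.sl _ (k8 σ k)]).abs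
      rw [← setIntegral_eq_integral_of_forall_compl_eq_zero (s := (fun σ => g (t n, σ)) '' _)
        fun τ k => by simp [hu, image_eq_zero_of_notMem_tsupport fun k' => k (k4 k')],
        integral_image_eq_integral_abs_deriv_smul measurableSet_Icc (fun σ _ =>
          (differentiableAt_of_deriv_ne_zero (k2.pos σ).ne').hasDerivAt.hasDerivWithinAt)
          k2.mono.injective.injOn]
      refine (integral_mono_of_nonneg (.of_forall fun _ => by positivity)
        ((k9.integrableOn_compact isCompact_Icc).const_mul |D|) ((ae_restrict_mem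
          measurableSet_Icc).mono fun σ k => ?_)).trans ((integral_const_mul _ _).trans_le
            (mul_le_mul_of_nonneg_left k6 (abs_nonneg _)))
      simp only [hu, k1, Option.elim_some, k2.sl _ (k8 σ k), smul_eq_mul, abs_mul]
      exact mul_le_mul ((k7 σ k).trans (le_abs_self D)) (mul_le_of_le_one_left (abs_nonneg _) ct_abs)
        (by positivity) (abs_nonneg _)
  · filter_upwards [tendsto_fst.eventually e1, ((m.tend ht x.2).comp (tendsto_id.prodMap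
      continuous_snd.continuousAt)).eventually (Icc_mem_nhds (a := x.2 - 1 / 16) (b := x.2 + 1 / 16)
        (by rw [J0 _ ⟨by linarith, by linarith⟩]; linarith)
        (by rw [J0 _ ⟨by linarith, by linarith⟩]; linarith))] with q ⟨K, k1, _⟩ k2
    replace k2 : g (t q.1, q.2.2) ∈ Icc (x.2 - 1 / 16) (x.2 + 1 / 16) := k2
    simp only [hu, k1, Option.elim_some, convolution_def, ContinuousLinearMap.mul_apply', lb, av]
    rw [← integral_sub_left_eq_self (fun t => bp (1 / 2 - t) * _) volume (1 / 2)]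
    refine congrArg _ (integral_congr_ae (.of_forall fun p => ?_))
    by_cases h : p ∈ Icc (0 : ℝ) 1
    · simp only [θ, show ∀ a : ℝ, a - (1 / 2 - p) = a + p - 1 / 2 from fun _ => by
        ring, show (1 / 2 : ℝ) + p - 1 / 2 = p by ring]
      rw [ct_one (by norm_num) ⟨by linarith [k2.1, h.1], by linarith [k2.2, h.2]⟩, one_mul]
    · simp [Pb50.bp_zero h]

end fam

end Crest.Agent.X212.Loc74
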