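import Crest.Agent.X212.Loc74.Boot
import Crest.Agent.X212.Pb50.Nk
import Crest.Agent.X212.Sep15.SwB

/-!
# Row 212, SW-LOC (helper74): families of pieces, the perturbation terms
-/

set_option autoImplicit false
set_option linter.unusedSectionVars false
noncomputable section
open scoped Manifold ContDiff Topology InnerProductSpace
open MeasureTheory Set Function Filter

namespace Crest.Agent.X212.Loc74
open An An.Pre Sob92 Lw78 Sw Sw.En3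
open Prm93 (Mix SB)
open Nd18 (Dp)
open M (Mf)
open Win45 (FZ)

variable {κ lam ν : Type} [Fintype κ] [Fintype lam] [Fintype ν] [DecidableEq ν] {α : Type}
  {l : Filter α} {j p : ℕ} {X : Mf 4} {nc : ℕ} {V : Type} [NormedAddCommGroup V] [NormedSpace ℝ V]
  {d : Dt κ lam ν} {N : Type} [Fintype N] {ty : N → d.𝓔}
  {T : Type} [NormedAddCommGroup T] [NormedSpace ℝ T] [FiniteDimensional ℝ T]
  {s : Pz X 0 fun i => d.e (ty i)} {𝓕 : Fam s nc T} {t₀ t₁ : T} {t : α → T} {q : α → d.W →₀ ℝ}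
  {q₀ : d.W →₀ ℝ} {c : α → Cfg X.M κ ν}

theorem Lc.neg {ι : Type} [Fintype ι] {F : Pre X.I X.M ι} {z : X.M} {f : α → X.M → V}
    (h : Lc l F z j f) : Lc l F z j fun i x => -f i x :=
  let ⟨_, h1, h2, h⟩ := h; ⟨_, h1.neg, h2.neg, h.mono fun _ e => congrArg Neg.neg e⟩

theorem χ_off {e : En3 κ lam ν} {b : Bg X.I X.M κ lam ν nc} (K : Nk e b) {a : ℝ} (h1 : K.p = some a)
    (h2 : K.q = some (a + 2)) (x : X.M) : K.χ x = 0 := by
  simp only [Nd18.Nk.χ, Nd18.Nk.cut, Nd18.ct, h1, h2, Option.elim_some, mul_eq_zero]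
  exact (le_total (K.tm x) (a + 1)).imp (fun _ => Real.smoothTransition.zero_of_nonpos (by linarith))
    fun _ => Real.smoothTransition.zero_of_nonpos (by linarith)

variable (𝓕 t₀ t₁) in
/-- the change from the frame at `t₀` to the frame at `t₁` -/
def mx (a k : Option κ) (x : X.M) : ℝ := ∑ e, 𝓕.S t₁ x a e * 𝓕.Si t₀ x e k

theorem t1_mx (c : Cfg X.M κ ν) (k : Option κ) (x : X.M) :
    t1 (mx 𝓕 t₀ t₁) c.a k x = ∑ e, 𝓕.S t₁ x k e * 𝓕.al t₀ c x e := by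
  simp only [t1, mx, Fam.al, Finset.mul_sum, Finset.sum_mul, mul_assoc]
  exact Finset.sum_comm

variable (𝓕 l t q c) in
/-- solutions on larger and larger sets -/
structure Sq : Prop where
  adm : ∀ᶠ i in l, (𝓕.P (t i)).bg.Adm (c i) ∧
    ∀ j, (𝓕.P (t i)).bg.l j (c i) = ((𝓕.P (t i)).pt (q i)).S (c i) j
  eq : ∀ K, IsCompact K → ∀ᶠ i in l, (𝓕.P (t i)).bg.EqOn ((𝓕.P (t i)).pt (q i)) (c i) K

variable (h : 𝓕.OK) (h₀ : t₀ ∈ 𝓕.Q)
include h h₀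

theorem mix_mx (h₁ : t₁ ∈ 𝓕.Q) : Mix (𝓕.P t₀).bg.F.toPre (𝓕.P t₁).bg.F.toPre (mx 𝓕 t₀ t₁) :=
  fun a x => by
  have e : ∀ a, s.bg.F.e a x = ∑ b, 𝓕.Si t₀ x a b • (𝓕.P t₀).bg.F.e b x := fun a => by
    simp only [h.mix t₀ h₀ _ x, Finset.smul_sum, smul_smul]
    rw [Finset.sum_comm, ← s.bg.F.P_e a x]
    exact Finset.sum_congr rfl fun b _ => by rw [← Finset.sum_smul, h.SiS t₀ h₀, h.site.bg.G.P]
  simp only [h.mix t₁ h₁ a x, e, mx, Finset.smul_sum, smul_smul, Finset.sum_smul]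
  exact Finset.sum_comm

theorem sm_mx (h₁ : t₁ ∈ 𝓕.Q) (a k : Option κ) : Sm X.I (mx 𝓕 t₀ t₁ a k) :=
  contMDiff_finsetSum fun e _ =>
    ((h.sS a e).cb _ h₁).choose_spec.1.mul ((h.sSi e k).cb _ h₀).choose_spec.1

theorem adm_mx (h₁ : t₁ ∈ 𝓕.Q) {c : Cfg X.M κ ν} (hc : (𝓕.P t₁).bg.Adm c) :
    Frm (𝓕.P t₀).bg.F (t1 (mx 𝓕 t₁ t₀) c.a) ∧ c.a = t1 (mx 𝓕 t₀ t₁) (t1 (mx 𝓕 t₁ t₀) c.a) := by
  have e := funext₂ (t1_mx (𝓕 := 𝓕) (t₀ := t₁) (t₁ := t₀) c)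
  refine ⟨⟨fun k => contMDiff_finsetSum fun a _ => (sm_mx h h₁ h₀ k a).mul (hc.sa a), fun k x => ?_⟩,
    funext₂ fun k x => ((t1_mx ⟨t1 (mx 𝓕 t₁ t₀) c.a, c.Φ⟩ k x).trans ?_).symm⟩
  · rw [show (𝓕.P t₀).bg.F.P = _ from (h.ok _ h₀).bg.G.P, h.B _ h₀, e]
    exact Pb50.P_S h h₀ (fun b x => 𝓕.al t₁ c x b) k x
  · simp only [e, Pb50.al_S h h₀ (Pb50.P_al h h₁ c)]
    exact Pb50.S_al h h₁ (h.B _ h₁ ▸ hc.pa) k x

variable (ht : Tendsto t l (𝓝 t₀))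
include ht

theorem sb_mb (x : X.M) : ∀ (k : ℕ) {V : Type} [NormedAddCommGroup V] [NormedSpace ℝ V]
    {f : T → X.M → V}, SB s.bg.F.toPre 𝓕.Q f → Cmp73.MB X.I l x k fun i => f (t i)
  | 0, _, _, _, f, k => by
    obtain ⟨C, hC⟩ := k.bound 0 h₀
    rw [h.opn.nhdsWithin_eq h₀] at hC
    exact .zero_of (tendsto_fst.eventually ((ht.eventually (h.opn.mem_nhds h₀)).mono
      fun i hi y => (k.cb _ hi).choose_spec.1 y) |>.mono fun q hq => hq q.2)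
      ⟨C, (tendsto_fst.eventually (ht.eventually hC)).mono fun q hq => hq [] le_rfl q.2⟩
  | n + 1, _, _, _, _, k => .gainP s.bg.F.toPre (sb_mb x 0 k) fun a => sb_mb x n (k.D a)

theorem sb_cv {f : T → X.M → V} (k : SB s.bg.F.toPre 𝓕.Q f) :
    Cmp73.Cv X.I l univ (fun i => f (t i)) (f t₀) :=
  ⟨fun n x _ => sb_mb h h₀ ht x n k, fun x _ =>
    ((k.ev x).continuousOn.continuousAt (h.opn.mem_nhds h₀)).tendsto.comp ht⟩

theorem nb : Nb l (𝓕.P t₀).bg (fun i => (𝓕.P (t i)).bg) fun i => mx 𝓕 t₀ (t i) :=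
  have Q := ht.eventually (h.opn.mem_nhds h₀)
  ⟨(h.ok _ h₀).bg, Q.mono fun _ k => ⟨(h.ok _ k).bg, (h.B _ k).trans (h.B _ h₀).symm,
      (h.m _ k).trans (h.m _ h₀).symm, (h.w _ k).trans (h.w _ h₀).symm, mix_mx h h₀ k⟩,
    Q.mono fun _ k => sm_mx h h₀ k, fun a k => (Cmp73.Cv.sum fun e => (sb_cv h h₀ ht (h.sS a e)).mul
      (.fixed' ((h.sSi e k).cb _ h₀).choose_spec.1)).congr (fun _ _ => .of_forall fun _ => rfl)
      fun x _ => by rw [h.SSi _ h₀, ← h.B _ h₀, (h.ok _ h₀).bg.G.P],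
    fun a => (sb_cv h h₀ ht (h.sA a)).mb, fun a k n => (sb_cv h h₀ ht (h.sc a k n)).mb,
    (sb_cv h h₀ ht h.sms).mb, (sb_cv h h₀ ht h.som).mb⟩

theorem Sq.act (H : Sq l 𝓕 t q c) {u : α → X.M → ℂ} (hu : ∀ i, Gau X.I (u i)) :
    Sq l 𝓕 t q fun i => (𝓕.P (t i)).bg.act (u i) (c i) := by
  have A := H.adm.and ((ht.eventually (h.opn.mem_nhds h₀)).mono fun i => h.ok (t i))
  refine ⟨A.mono fun i k => ⟨Pb50.adm_of fun x => (Pb50.LA.of_adm k.1.1 x).act k.2.bg ((hu i).1 x),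
    fun j => ?_⟩, fun K hK => ((H.eq K hK).and A).mono fun i k x hx => ⟨?_, ?_⟩⟩
  · obtain ⟨z, -, e⟩ := Pb50.cut_act k.2.bg k.1.1 (hu i) j
    simp only [Pc.pt, Bg.l, e]
    rw [show (𝓕.P (t i)).bg.lη j _ (c i) = _ from k.1.2 j]
    simp only [Pc.pt, Finsupp.sum, Finset.mul_sum, mul_smul_comm]
  · rw [Pb50.eD_act k.2.2.bg (.of_adm k.2.1.1 x) (.of_gau (hu i) x), (k.1 x hx).1]
    exact (Pb50.p0D_act k.2.2.toOK k.2.1.1 (hu i) x).symm
  · rw [Pb50.eC_act k.2.2.bg (fun a => k.2.1.1.sa a x) (.of_gau (hu i) x), (k.1 x hx).2]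
    simp only [Pc.pt, Pb50.p0C_act k.2.2.toOK k.2.1.1 (hu i), Pb50.tm_act k.2.1.1 (hu i)]

theorem nk_term (i : N) {S : (d.e (ty i)).ZC → ℝ → ℝ} {fo : (d.e (ty i)).Y.M → V}
    (hf : Sm (d.e (ty i)).Y.I fo) (H : ∀ K₀ g U, Mv 𝓕 t₀ i K₀ g U →
      ∀ x : (d.e (ty i)).Y.M × ℝ, x.2 ∈ Dp K₀.p K₀.q (7 / 8) → Lc l (FZ _) x j fun n y =>
        ((𝓕.P (t n)).nk i).elim 0 fun K => S (K.pb (c n)) (g (t n, y.2))) (z : X.M) :
    Lc l (𝓕.P t₀).bg.F.toPre z j fun n x =>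
      ((𝓕.P (t n)).nk i).elim 0 fun K => S (K.pb (c n)) (K.tm x) • K.ext fo x := by
  obtain k | ⟨K₀, g, U, m⟩ := mv_cases h h₀ i
  · refine (Lc.of (.const 0)).congr ((tendsto_fst.eventually (ht.eventually k)).mono fun q k => ?_)
    cases e : (𝓕.P (t q.1)).nk i with
    | none => rfl
    | some K =>
      obtain ⟨a, h1, h2⟩ := k K e
      rw [Option.elim_some, Nd18.Nk.ext, χ_off K h1 h2, zero_smul, smul_zero]
  · exact m.term ht hf (H K₀ g U m) z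

/-- the right hand sides -/
theorem Sq.rhs (H : Sq l 𝓕 t q c) (hq : St.Cv l q q₀) (I : ∀ z, IH l j (𝓕.P t₀).bg.F.toPre z c)
    (z : X.M) : (HB l z (𝓕.P t₀).bg.F.toPre 2 (j + 1) fun i => (𝓕.P (t i)).bg.eD (c i)) ∧
      HB l z (𝓕.P t₀).bg.F.toPre 2 (j + 1) fun i => (𝓕.P (t i)).bg.eC (c i) := by
  classical
  have := Manifold.locallyCompact_of_finiteDimensional (M := X.M) X.I
  obtain ⟨K, hK, hz⟩ := exists_compact_mem_nhds z
  have n := nb h h₀ ht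
  have A := H.adm.and n.ok
  have E := ((H.eq K hK).and A).prod_mk hz
  have en := (h.ok _ h₀).en
  obtain ⟨J, hJ, hq⟩ := hq
  constructor
  · obtain ⟨g, g1, g2, g3⟩ := Lc.fsum Finset.univ fun i _ => nk_term h h₀ ht (c := c) i
      (S := fun c τ => (d.e (ty i)).b (nm (sl c τ))) (fo := fun _ => (1 : ℝ)) contMDiff_const
      (fun K₀ g U m x hx => m.slc ht (G := fun v => (d.e (ty i)).b (nm v)) hx
        (lc_nm K₀ (en i) I hx)) z
    have ρ := (n.ok₀.cρ none).choose_spec.1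
    refine (HB.mulL (.lsmul ℝ ℝ) g2 g1 ((HB.fixed ρ).app (I z).Φ) ((HB.fixed ρ).app (I z).bd)).congr
      (A.mono fun i k x => Sep15.S.sa_eD k.2.1 (k.1.1.sa · x) (k.1.1.sΦ x))
      ((E.and g3).mono fun q k => ?_)
    rw [(k.1.1.1 _ k.1.2).1, ← k.2, ← k.1.1.2.2.2.2.1, ContinuousLinearMap.lsmul_apply, Finset.sum_smul]
    refine Finset.sum_congr rfl fun i _ => ?_
    cases (𝓕.P (t q.1)).nk i <;> simp [Nk.rad, Nd18.Nk.ext, mul_comm]
  · refine ((((Lc.fsum Finset.univ fun i _ => nk_term h h₀ ht (c := c) i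
      (S := fun c τ => -deriv (d.e (ty i)).f (hol (sl c τ))) (en i).sζ (fun K₀ g U m x hx =>
        m.slc ht (G := fun v => -deriv (d.e (ty i)).f (hol v)) hx (Lc.neg (X := (d.e (ty i)).Z)
          (lc_hol K₀ (en i) I hx))) z).add
      (Lc.fsum (J ∪ q₀.support) fun w _ => Lc.bil (f := fun n => (𝓕.P (t n)).tm w (c n))
        (ContinuousLinearMap.lsmul ℝ ℝ).flip (.add (.of (.of_mbOn ((ht.eventually
          (h.opn.mem_nhds h₀)).mono fun _ k => (h.ok _ k).sf w) fun k =>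
          (sb_cv h h₀ ht (h.sfo w)).mb k z trivial)) (.fsum _ fun i _ => ?_))
        (.consts (hq w)))).congr (E.mono fun q k => ?_)).hb
      (A.mono fun i k x => Sep15.S.sa_eC k.2.1 (k.1.1.sa · x) (k.1.1.sΦ x)))
    · cases d.yt w (ty i) with
      | none => exact (Lc.of (.const 0)).congr (.of_forall fun q => by
          cases (𝓕.P (t q.1)).nk i <;> rfl)
      | some Y =>
        exact nk_term h h₀ ht (c := c) i (S := fun c τ => Y.b (lb c τ)) Y.sf (fun K₀ g U m x hx =>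
          m.lc_lb ht (en i) I (A.mono fun n k => ⟨⟨k.1.1.sa, k.1.1.sΦ, k.2.2.1 ▸ k.1.1.pa, by
            simpa only [Bg.pp, Bg.vol, k.2.2.1, k.2.2.2.1] using k.1.1.pΦ⟩, k.1.1⟩) Y hx) z
    · rw [(k.1.1 _ k.2).2]
      refine congrArg₂ (· + ·) rfl (Finsupp.sum_of_support_subset _ (fun w hw => ?_) _
        fun _ _ => zero_smul _ _)
      by_contra e
      rw [Finset.mem_union, not_or, Finsupp.notMem_support_iff, ← hJ q.1 w e.1] at e
      exact Finsupp.mem_support_iff.1 hw e.2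

end Crest.Agent.X212.Loc74
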