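import Mathlib

/-!
# Row 212, LOC (helper74): discrete localisation inequalities

Junctions are numbered from the far end: `E i` is the energy beyond the junction `i`, `φ i` the
square of the part of the class beyond it.
-/

set_option autoImplicit false

namespace Crest.Agent.X212.Loc74

variable {E φ : ℕ → ℝ} {C P T : ℝ}

/-- exponential growth of the energy while `φ` is large -/
theorem grow (hC : 0 < C) (h0 : 0 ≤ E 0) {L : ℕ}
    (h : ∀ i < L, φ i ≤ P - E i + C * (E (i + 1) - E i)) (hφ : ∀ i < L, P + 1 ≤ φ i) :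
    (1 + 1 / C) ^ L ≤ E L + 1 := by
  induction L with
  | zero => simpa using h0
  | succ L ih =>
    have h1 := ih (fun i hi => h i (by omega)) fun i hi => hφ i (by omega)
    have h2 : E L + 1 ≤ C * (E (L + 1) - E L) := by linarith [h L (by omega), hφ L (by omega)]
    have h3 : (E L + 1) * (1 / C) ≤ E (L + 1) - E L := by
      rw [mul_one_div, div_le_iff₀ hC]; linarith
    calc (1 + 1 / C) ^ (L + 1) ≤ (E L + 1) * (1 + 1 / C) := by
          rw [pow_succ]; exact mul_le_mul_of_nonneg_right h1 (by positivity)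
      _ ≤ E (L + 1) + 1 := by linarith

theorem exists_small (hC : 0 < C) (h0 : 0 ≤ E 0) {L : ℕ}
    (h : ∀ i < L, φ i ≤ P - E i + C * (E (i + 1) - E i)) (hT : E L + 1 < (1 + 1 / C) ^ L) :
    ∃ i < L, φ i < P + 1 := by
  by_contra hn
  push Not at hn
  exact absurd (grow hC h0 h hn) (not_le.2 hT)

/-- a sublinear number of steps suffices -/
theorem exists_len (hC : 0 < C) {η : ℝ} (hη : 0 < η) : ∃ K, ∀ T : ℝ, 0 ≤ T →
    ∃ L : ℕ, T + 1 < (1 + 1 / C) ^ L ∧ (L : ℝ) ≤ η * T + K := by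
  refine ⟨C ^ 2 / η + η + 4, fun T hT => ⟨2 * (⌈C * √(T + 1)⌉₊ + 1), ?_, ?_⟩⟩
  · set k := ⌈C * √(T + 1)⌉₊ + 1
    have h1 : 1 + (k : ℝ) * (1 / C) ≤ (1 + 1 / C) ^ k :=
      one_add_mul_le_pow (by have : 0 < 1 / C := by positivity
                             linarith) k
    have h2 : √(T + 1) < 1 + (k : ℝ) * (1 / C) := by
      have := Nat.le_ceil (C * √(T + 1))
      have h3 : √(T + 1) ≤ (k : ℝ) * (1 / C) := by
        rw [mul_one_div, le_div_iff₀ hC]; push_cast [k]; linarith
      linarith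
    rw [pow_mul', ← Real.sq_sqrt (show 0 ≤ T + 1 by linarith)]
    exact pow_lt_pow_left₀ (h2.trans_le h1) (Real.sqrt_nonneg _) two_ne_zero
  · have h1 := (Nat.ceil_lt_add_one (show 0 ≤ C * √(T + 1) by positivity)).le
    have h2 := Real.sq_sqrt (show 0 ≤ T + 1 by linarith)
    have h3 : 2 * (C * √(T + 1)) ≤ η * √(T + 1) ^ 2 + C ^ 2 / η := by
      have : 0 ≤ η * (√(T + 1) - C / η) ^ 2 := by positivity
      have e : η * (√(T + 1) - C / η) ^ 2 =
        η * √(T + 1) ^ 2 + C ^ 2 / η - 2 * (C * √(T + 1)) := by field_simp; ring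
      linarith
    push_cast
    nlinarith

/-- **LOC**: every letter lowers the square by `a`, the self-dual energy grows at most linearly;
then the square `q` of the whole class has slope almost `-a`. -/
theorem loc (hC : 0 < C) {C₀ a b δ : ℝ} (hC₀ : 0 ≤ C₀) (ha : 0 ≤ a) (hb : 0 ≤ b) (hδ : 0 < δ) :
    ∃ K, ∀ (N : ℕ) (E φ : ℕ → ℝ) (q : ℝ), 0 ≤ E 0 → (∀ i < N, E i ≤ E (i + 1)) →
      (∀ i < N, φ i ≤ C₀ * (i + 1) - E i + C * (E (i + 1) - E i)) →
      E N ≤ C₀ * (N + 1) - q → (∀ i < N, q ≤ φ i - a * (N - i) + b) → q ≤ K - (a - δ) * N := by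
  have hs : 0 < C₀ + a + 1 := by linarith
  obtain ⟨K, hK⟩ := exists_len hC (η := δ / (C₀ + a + 1) ^ 2) (by positivity)
  refine ⟨(C₀ + a + 1) * |K| + δ + C₀ + 1 + b, fun N E φ q h0 hm h hT hq => ?_⟩
  have hN : (0 : ℝ) ≤ N := N.cast_nonneg
  have hk := abs_nonneg K
  by_cases hq0 : q ≤ -a * N
  · nlinarith
  have mono : ∀ i j, i ≤ j → j ≤ N → E i ≤ E j := fun i j hij hj => by
    induction j, hij using Nat.le_induction with
    | base => rfl
    | succ j _ ih => exact (ih (by omega)).trans (hm j (by omega))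
  obtain ⟨L, h1, h2⟩ := hK ((C₀ + a + 1) * (N + 1)) (by positivity)
  have hL : (0 : ℝ) ≤ L := L.cast_nonneg
  have h3 : (C₀ + a + 1) * L ≤ δ * (N + 1) + (C₀ + a + 1) * |K| := by
    have := mul_le_mul_of_nonneg_left (h2.trans (add_le_add_right (le_abs_self K) _)) hs.le
    rwa [mul_add, show (C₀ + a + 1) * (δ / (C₀ + a + 1) ^ 2 * ((C₀ + a + 1) * (N + 1))) =
      δ * (N + 1) by field_simp] at this
  have key : q ≤ C₀ * (L + 1) + 1 + b - a * (N - L) := by
    rcases le_or_gt N L with hl | hl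
    · have : (N : ℝ) ≤ L := by exact_mod_cast hl
      nlinarith [mono 0 N N.zero_le le_rfl]
    obtain ⟨i, hi, h4⟩ := exists_small (P := C₀ * L) hC h0 (L := L) (φ := φ) (fun i hi => by
      have : (i : ℝ) + 1 ≤ L := by exact_mod_cast hi
      nlinarith [h i (by omega)]) (by nlinarith [mono L N hl.le le_rfl])
    have : (i : ℝ) ≤ L := by exact_mod_cast hi.le
    nlinarith [hq i (by omega)]
  nlinarith

/-- **LOC2**: much energy in the tail forces energy on the letters. -/
theorem loc2 (hC : 0 < C) {ε m a q : ℝ} (hm : C * a + ε ≤ m) {r : ℕ} (h0 : m ≤ E 0)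
    (hE : ∀ i < r, E i ≤ E (i + 1)) (h : ∀ i < r, φ i ≤ ε - E i + C * (E (i + 1) - E i))
    (hq : ∀ i < r, q ≤ φ i - a * (r - i)) (h1 : E r ≤ T) (h2 : -q ≤ T) (hm0 : 0 ≤ m)
    (ha : 0 ≤ a) : (m + a * r) / 2 ≤ T := by
  have mono : ∀ i j, i ≤ j → j ≤ r → E i ≤ E j := fun i j hij hj => by
    induction j, hij using Nat.le_induction with
    | base => rfl
    | succ j _ ih => exact (ih (by omega)).trans (hE j (by omega))
  have key : ∀ i ≤ r, (∀ j < i, 0 ≤ φ j) → m + a * i ≤ E i := fun i hi hφ => by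
    induction i with
    | zero => simpa using h0
    | succ i ih =>
      have a1 := ih (by omega) fun j hj => hφ j (by omega)
      have a2 : C * a ≤ C * (E (i + 1) - E i) := by
        linarith [h i (by omega), hφ i (by omega), mono 0 i i.zero_le (by omega)]
      have a3 := le_of_mul_le_mul_left a2 hC
      push_cast
      linarith
  by_cases hn : ∃ j, j < r ∧ φ j < 0
  · classical
    have a1 := Nat.find_spec hn
    have a2 := key _ a1.1.le fun j hj => not_lt.1 fun k => Nat.find_min hn hj ⟨hj.trans a1.1, k⟩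
    linarith [hq _ a1.1, mono _ r a1.1.le le_rfl, a1.2]
  · have a1 := key r le_rfl fun j hj => not_lt.1 fun k => hn ⟨j, hj, k⟩
    have : 0 ≤ a * r := by positivity
    linarith

/-- pigeonhole: among `n` disjoint slabs one has small energy -/
theorem pigeon {n : ℕ} (hn : 0 < n) {e : ℕ → ℝ} (h : ∑ i ∈ Finset.range n, e i ≤ T) :
    ∃ i < n, e i ≤ T / n := by
  obtain ⟨i, hi, h1⟩ := Finset.exists_le_of_sum_le (s := Finset.range n) (f := e)
    (g := fun _ => T / n) ⟨0, by simpa⟩ (by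
      rw [Finset.sum_const, Finset.card_range, nsmul_eq_mul, mul_div_cancel₀ _ (by positivity)]
      exact h)
  exact ⟨i, Finset.mem_range.1 hi, h1⟩

end Crest.Agent.X212.Loc74
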