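import Crest.Agent.X212.Loc74.Cou
import Crest.Agent.X212.Lw78.Cy

/-!
# Row 212, SW-LOC (helper74): transport of bounds, slice integrals, functions of the time
-/

set_option autoImplicit false
set_option linter.unusedSectionVars false
noncomputable section
open scoped Manifold ContDiff Topology InnerProductSpace Convolution
open MeasureTheory Set Function Filter

namespace Crest.Agent.X212.Loc74
open An An.Pre Sob92 Ell97 Lw78 Lw78.Wn Cyf70
open Cmp73 (MB Cv)

variable {E : Type} [NormedAddCommGroup E] [NormedSpace ℝ E] [FiniteDimensional ℝ E]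
  [MeasurableSpace E] [BorelSpace E]
  {HM : Type} [TopologicalSpace HM] {I : ModelWithCorners ℝ E HM} [I.Boundaryless]
  {M : Type} [TopologicalSpace M] [ChartedSpace HM M] [IsManifold I ∞ M]
  [MeasurableSpace M] [T2Space M] [BorelSpace M] [SecondCountableTopology M]
  {E' : Type} [NormedAddCommGroup E'] [NormedSpace ℝ E'] [FiniteDimensional ℝ E']
  [MeasurableSpace E'] [BorelSpace E']
  {HM' : Type} [TopologicalSpace HM'] {I' : ModelWithCorners ℝ E' HM'} [I'.Boundaryless]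
  {M' : Type} [TopologicalSpace M'] [ChartedSpace HM' M'] [IsManifold I' ∞ M']
  [MeasurableSpace M'] [T2Space M'] [BorelSpace M'] [SecondCountableTopology M']
  {ι : Type} [Fintype ι]
  {N N' N'' : Type} [NormedAddCommGroup N] [NormedSpace ℝ N] [NormedAddCommGroup N']
  [NormedSpace ℝ N'] [NormedAddCommGroup N''] [NormedSpace ℝ N''] {α : Type}
  {l : Filter α} {F : Pre I M ι} {F' : Pre I' M' ι} {φ : OpenPartialHomeomorph M M'} {z : M}
  {p q j : ℕ} {f f' : α → M → N}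

theorem iso_integral (h : Iso F F' φ) {S : Set M} (hS : IsOpen S) (hs : S ⊆ φ.source) {g : M' → ℝ}
    (hg : Continuous g) : ∫ x in φ '' S, g x ∂F'.μ = ∫ x in S, g (φ x) ∂F.μ := by
  have aem : AEMeasurable φ (F.μ.restrict φ.source) :=
    φ.continuousOn.aemeasurable φ.open_source.measurableSet
  have hO := (φ.isOpen_image_of_subset_source hS hs).measurableSet
  rw [← inter_eq_left.2 (image_subset_iff.2 fun x hx => φ.map_source (hs hx) : φ '' S ⊆ φ.target),
    ← Measure.restrict_restrict hO, ← h.μ, Measure.restrict_map_of_aemeasurable aem hO,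
    Measure.restrict_restrict' φ.open_source.measurableSet, φ.injOn.preimage_image_inter hs,
    integral_map (aem.mono_measure (Measure.restrict_mono hs le_rfl)) hg.aestronglyMeasurable]

theorem ev_ev {P : α → M → Prop} (h : ∀ᶠ q : α × M in l ×ˢ 𝓝 z, P q.1 q.2) :
    ∀ᶠ q : α × M in l ×ˢ 𝓝 z, ∀ᶠ y in 𝓝 q.2, P q.1 y :=
  let ⟨_, h1, _, h2, h⟩ := eventually_prod_iff.1 h
  (h1.prod_mk (eventually_eventually_nhds.2 h2)).mono fun _ k => k.2.mono fun _ k' => h k.1 k'

/-- transport along a partial isomorphism -/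
theorem HB.tr (hI : Iso F F' φ) (hz : z ∈ φ.source) : ∀ {j : ℕ} {f : α → M → N} {g : α → M' → N},
    HB l (φ z) F' p j g → (∀ᶠ i in l, Sm I (f i)) →
    (∀ᶠ q : α × M in l ×ˢ 𝓝 z, f q.1 q.2 = g q.1 (φ q.2)) → HB l z F p j f := by
  have h0 : ∀ {f : α → M → N} {g : α → M' → N}, HB l (φ z) F' p 1 g → (∀ᶠ i in l, Sm I (f i)) →
      (∀ᶠ q : α × M in l ×ˢ 𝓝 z, f q.1 q.2 = g q.1 (φ q.2)) → HB l z F p 1 f := fun {f g} h hs e => by
    rcases eq_or_ne p 0 with rfl | hp
    · obtain ⟨C, hC⟩ := h.bdd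
      exact .one0 hs ⟨C, (e.and ((tendsto_id.prodMap (φ.continuousAt hz)).eventually hC)).mono
        fun q k => k.1 ▸ k.2⟩
    obtain ⟨pa, e1, pb, e2, e⟩ := eventually_prod_iff.1 e
    obtain ⟨U, hU, H⟩ := eventually_smallSets.1 h.cutI
    obtain ⟨B, hB⟩ := H U Subset.rfl
    obtain ⟨S, k⟩ := exists_wz (I := I) (inter_mem (inter_mem e2 (φ.open_source.mem_nhds hz))
      (φ.continuousAt hz hU))
    have k1 := interior_subset.trans (k 0)
    refine .of_int (S.nhd 1) (S.cpt 1) hp hs ⟨B, ?_⟩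
    filter_upwards [hB, e1, h.sm, hs] with i k2 k3 k4 k5
    refine (setIntegral_mono_set (((k5.continuous.norm.fun_pow p).continuousOn.integrableOn_compact
      (S.cpt 0)).mono_set interior_subset) (.of_forall fun _ => pow_nonneg (norm_nonneg _) _)
      (show S.S 1 ⊆ _ from fun x hx => mem_interior_iff_mem_nhds.2
        (Wn.nhd (w := S.w F Unit) (d := ()) zero_lt_one hx)).eventuallyLE).trans (le_trans (le_of_eq ?_)
      (k2 _ (image_subset_iff.2 fun x hx => (k1 hx).2)))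
    rw [iso_integral hI isOpen_interior (fun x hx => (k1 hx).1.2) (k4.continuous.norm.fun_pow p)]
    exact setIntegral_congr_fun isOpen_interior.measurableSet fun x hx => by
      simp only [e k3 (k1 hx).1.1]
  intro j
  induction j with
  | zero => exact fun _ hs _ => .zero hs
  | succ j ih =>
    refine fun {f g} h hs e => .succ (h0 (h.of_le (by omega)) hs e) fun a => ih (h.D a)
      (hs.mono fun _ k => F.sm_D k a) ?_
    filter_upwards [ev_ev (P := fun i x => f i x = g i (φ x)) e, tendsto_fst.eventually h.sm,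
      tendsto_snd.eventually (φ.open_source.mem_nhds hz)] with q k1 k2 k3
    exact (dv_congr k1).trans (iso_D_comp hI k3 (md k2 _) a)

theorem HB.mulL {g : α → M → N'} (B : N →L[ℝ] N' →L[ℝ] N'') (h : HB l z F 2 (j + 1) f)
    (h' : HB l z F 0 j f) (k : HB l z F 2 (j + 1) g) (k0 : HB l z F 0 1 g) :
    HB l z F 2 (j + 1) fun i x => B (f i x) (g i x) :=
  (Ev.and (Ev.and h h') (Ev.and k k0)).mono fun _ _ h =>
    Jt.mulL B (holL 2) h.2.2.lp h.2.1.sm h.1.1 h.1.2 h.2.1.D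

theorem HB.compI {γ : α → M → ℝ} : ∀ {j : ℕ} {G : α → ℝ → ℝ}, (∀ᶠ i in l, ContDiff ℝ ∞ (G i)) →
    (∀ k, ∃ C, ∀ᶠ i in l, ∀ t, |iteratedDeriv k (G i) t| ≤ C) → HB l z F 0 j γ →
    HB l z F 0 j fun i x => G i (γ i x)
  | 0, _, h1, _, h => .zero ((h1.and h.sm).mono fun _ k => sm_comp k.1 k.2)
  | _ + 1, G, h1, h2, h => .succ (.one0 ((h1.and h.sm).mono fun _ k => sm_comp k.1 k.2)
      ((h2 0).imp fun _ k => (tendsto_fst.eventually k).mono fun _ k => k _)) fun a =>
      ((compI (G := fun i => deriv (G i)) (h1.mono fun _ k => (contDiff_infty_iff_deriv.1 k).2)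
        (fun k => by simpa only [← iteratedDeriv_succ'] using h2 (k + 1)) h.pred).smul (h.D a)).eq
        ((h1.and h.sm).mono fun i k x => by rw [D_comp k.1 k.2]; simp [mul_comm])

theorem HB.param {T : Type} [NormedAddCommGroup T] [NormedSpace ℝ T] [FiniteDimensional ℝ T]
    {t : α → T} {t₀ : T} (ht : Tendsto t l (𝓝 t₀)) {g : T × ℝ → ℝ} {V : Set T} (hV : V ∈ 𝓝 t₀)
    (hg : ContDiffOn ℝ ∞ g (V ×ˢ univ)) {σ : M → ℝ} (hσ : Sm I σ) :
    HB l z F p j fun i x => g (t i, σ x) :=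
  .of_mbOn ((ht.eventually hV).mono fun _ k => (contDiffOn_univ.1 (hg.comp (s := univ)
      (contDiff_const.prodMk contDiff_id).contDiffOn fun _ _ => ⟨k, trivial⟩)).contMDiff.comp hσ)
    fun _ => (((Cv.consts (Ω := univ) ht).prodMk (.fixed' hσ)).post fun _ _ =>
      (eventually_eventually_nhds.2 (prod_mem_nhds hV univ_mem)).mono fun _ k =>
        hg.contDiffAt k).mb _ _ trivial

theorem HB.consts {c : α → N} {c₀ : N} (h : Tendsto c l (𝓝 c₀)) : HB l z F p j fun i _ => c i :=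
  .of_mbOn (.of_forall fun _ => contMDiff_const) fun _ => (Cv.consts (Ω := univ) h).mb _ _ trivial

theorem HB.to1 (h : HB l z F 2 j f) : HB l z F 1 j f :=
  (HB.bil (ContinuousLinearMap.lsmul ℝ ℝ) (.inr (.inr ⟨one_ne_zero, rfl, rfl⟩)) (.const 1) h).eq
    (.of_forall fun _ _ => (one_smul _ _).symm)

/-- from points to windows -/
theorem HB.win {K : Set M} (hK : IsCompact K) (h0 : K.Nonempty) : ∀ {j : ℕ} {f : α → M → N},
    (∀ z ∈ K, HB l z F 2 j f) → ∃ A ∈ l, ∀ A' ⊆ A, ∀ w : Wn F A', (∀ d, ∀ r > 0, w.S d r ⊆ K) →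
      w.Jt 2 j fun d => f d.1
  | 0, _, h => ⟨_, (h _ h0.some_mem).sm, fun _ a _ _ d => a d.2⟩
  | _ + 1, f, h => by
    obtain ⟨B, hB⟩ := HB.int hK fun z hz => (h z hz).of_le (Nat.le_add_left 1 _)
    choose A h1 h2 using fun a => win hK h0 fun z hz => (h z hz).D a
    refine ⟨_, inter_mem ((h _ h0.some_mem).sm.and hB) (iInter_mem.2 h1), fun A' a w k =>
      ⟨fun d => (a d.2).1.1, ⟨fun e => absurd e two_ne_zero, fun r hr => ⟨B, fun d =>
        (setIntegral_mono_set (((a d.2).1.1.continuous.norm.fun_pow 2).continuousOn.integrableOn_compact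
          hK) (.of_forall fun _ => sq_nonneg _) (k d r hr).eventuallyLE).trans (a d.2).1.2⟩⟩,
        fun b => h2 b _ (a.trans (inter_subset_right.trans (iInter_subset _ b))) w k⟩⟩

theorem HB.of_win {A : Set α} (hA : A ∈ l) {w : Wn F A} {U : Set M} (hU : U ∈ 𝓝 z) {r : ℝ}
    (hr : 0 < r) (k : ∀ d, U ⊆ w.S d r) (h : w.Jt p j fun d => f d.1) : HB l z F p j f :=
  ⟨A, hA, U, hU, fun _ a _ b => jt_res (inclusion a) (fun s _ => ⟨r, hr, fun _ => (b s).trans (k _)⟩) h⟩

variable (l z F j) in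
/-- near `z` a family with bounds in `C^{j-1}` and in `H^j` -/
def Lc (f : α → M → N) : Prop := ∃ g, HB l z F 0 j g ∧ HB l z F 2 (j + 1) g ∧
  ∀ᶠ q : α × M in l ×ˢ 𝓝 z, f q.1 q.2 = g q.1 q.2

theorem Lc.of (h : HB l z F 0 (j + 1) f) : Lc l F z j f := ⟨f, h.pred, h.of0, .of_forall fun _ => rfl⟩

theorem Lc.congr (h : Lc l F z j f) (e : ∀ᶠ q : α × M in l ×ˢ 𝓝 z, f' q.1 q.2 = f q.1 q.2) :
    Lc l F z j f' := let ⟨g, h1, h2, h⟩ := h; ⟨g, h1, h2, (e.and h).mono fun _ k => k.1.trans k.2⟩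

theorem Lc.add (h : Lc l F z j f) (h' : Lc l F z j f') : Lc l F z j fun i x => f i x + f' i x :=
  let ⟨_, h1, h2, h⟩ := h
  let ⟨_, k1, k2, k⟩ := h'
  ⟨_, h1.add k1, h2.add k2, (h.and k).mono fun _ e => congrArg₂ (· + ·) e.1 e.2⟩

theorem Lc.fsum {κ : Type} (s : Finset κ) {f : κ → α → M → N} (h : ∀ a ∈ s, Lc l F z j (f a)) :
    Lc l F z j fun i x => ∑ a ∈ s, f a i x := by
  classical
  induction s using Finset.induction_on with
  | empty => exact .of (.const 0)
  | insert a s ha ih =>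
    simpa only [Finset.sum_insert ha] using (h a (by simp)).add (ih fun b hb => h b (by simp [hb]))

theorem Lc.bil {g : α → M → N'} (B : N →L[ℝ] N' →L[ℝ] N'') (h : Lc l F z j f)
    (k : HB l z F 0 (j + 1) g) : Lc l F z j fun i x => B (f i x) (g i x) :=
  let ⟨_, h1, h2, h⟩ := h
  ⟨_, h1.bil B (holL 0) k.pred, h2.bil B (holR 2) k, h.mono fun q e => congrArg (B · (g q.1 q.2)) e⟩

theorem Lc.tr (hI : Iso F F' φ) (hz : z ∈ φ.source) {g : α → M' → N} (h : Lc l F' (φ z) j g) :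
    Lc l F z j fun i x => g i (φ x) := by
  obtain ⟨u, h1, h2, h⟩ := h
  obtain ⟨β, c1, c2, c3, c4, -⟩ := exists_bump (I := I') (φ.open_target.mem_nhds (φ.map_source hz))
  have t := tendsto_id (x := l).prodMap (φ.continuousAt hz)
  have e : ∀ᶠ q : α × M in l ×ˢ 𝓝 z, pull φ (fun y => β y • u q.1 y) q.2 = u q.1 (φ q.2) := by
    filter_upwards [tendsto_snd.eventually (φ.open_source.mem_nhds hz),
      tendsto_snd.eventually ((φ.continuousAt hz).eventually c4)] with q k1 k2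
    rw [pull_of_mem k1, k2, one_smul]
  have s := h1.sm.mono fun i k => sm_pull hI (c1.smul k) (.of_isCompact c2.smul_right
    ((tsupport_smul_subset_left _ _).trans c3))
  exact ⟨_, h1.tr hI hz s e, h2.tr hI hz s e, (e.and (t.eventually h)).mono fun _ k =>
    k.2.trans k.1.symm⟩

theorem Lc.hb (h : Lc l F z j f) (hs : ∀ᶠ i in l, Sm I (f i)) : HB l z F 2 (j + 1) f :=
  let ⟨_, _, h2, h⟩ := h; h2.congr hs h

/-- derivatives of a convolution -/
theorem cv_bd1 (i : ℕ) : ∀ {φ : ℝ → ℝ}, ContDiff ℝ ∞ φ → HasCompactSupport φ → ∃ K ≥ 0,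
    ∀ g : ℝ → ℝ, Continuous g → Integrable g → ∀ t,
      |iteratedDeriv i (φ ⋆[ContinuousLinearMap.mul ℝ ℝ] g) t| ≤ K * ∫ s, |g s| := by
  induction i with
  | zero =>
    intro φ h1 h2
    obtain ⟨K, hK⟩ := h2.exists_bound_of_continuous h1.continuous
    refine ⟨K, (norm_nonneg _).trans (hK 0), fun g _ hg t => ?_⟩
    rw [iteratedDeriv_zero, convolution_def, ← integral_sub_left_eq_self (fun s => |g s|) volume t,
      ← integral_const_mul, ← Real.norm_eq_abs]
    exact norm_integral_le_of_norm_le ((hg.comp_sub_left t).abs.const_mul K) (.of_forall fun s => by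
      simpa using mul_le_mul_of_nonneg_right (hK s) (abs_nonneg _))
  | succ i ih =>
    intro φ h1 h2
    obtain ⟨K, K0, h⟩ := ih (contDiff_infty_iff_deriv.1 h1).2 h2.deriv
    refine ⟨K, K0, fun g hg hB t => ?_⟩
    rw [iteratedDeriv_succ', show deriv (φ ⋆[ContinuousLinearMap.mul ℝ ℝ] g) =
      deriv φ ⋆[ContinuousLinearMap.mul ℝ ℝ] g from funext fun s =>
      (h2.hasDerivAt_convolution_left _ (h1.of_le (by simp)) hg.locallyIntegrable s).deriv]
    exact h g hg hB t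

variable [CompactSpace M]

/-- a function of a slice integral -/
theorem Lc.fn {x : M × ℝ} {u : α → M × ℝ → ℝ} {g : ℝ → ℝ} (hg : ContDiff ℝ ∞ g) {r : ℝ}
    (hr : 0 < r) (h : ∀ y ∈ univ ×ˢ Icc (x.2 - r) (x.2 + r), HB l y (cylP F) 2 (j + 1) u)
    (h0 : ∃ C, ∀ i y, ‖g (sI F (u i) y)‖ ≤ C) : Lc l (cylP F) x j fun i y => g (sI F (u i) y) := by
  obtain ⟨A, hA, k⟩ := HB.win (isCompact_univ.prod isCompact_Icc)
    ⟨x, trivial, by linarith, by linarith⟩ h
  obtain ⟨C, hC⟩ := h0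
  have := jt_fn hg (k A Subset.rfl (cw F (fun _ => x.2 - r) (fun _ => x.2 + r) fun _ => le_rfl)
    fun _ _ _ => prod_mono_right (Icc_subset_Icc (by linarith) (by linarith)))
    (lp0 fun _ _ => ⟨C, fun _ _ _ => hC _ _⟩)
  have U : univ ×ˢ Icc (x.2 - r + r / 2) (x.2 + r - r / 2) ∈ 𝓝 x :=
    prod_mem_nhds univ_mem (Icc_mem_nhds (by linarith) (by linarith))
  exact ⟨fun i y => g (sI F (u i) y), .of_win hA U (half_pos hr) (fun _ => Subset.rfl) this.1,
    .of_win hA U (half_pos hr) (fun _ => Subset.rfl) this.2, .of_forall fun _ => rfl⟩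

end Crest.Agent.X212.Loc74
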